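import Vale.Agent.P174.Degree.Homotopy

/-!
# A bump density whose weighted Jacobian integral is a homotopy invariant
-/

namespace Vale.Agent.P174.Degree

open MeasureTheory Matrix Filter Topology Metric

noncomputable section

variable (E : Type) [CStarAlgebra E]

/-- The skew adjoint elements, the tangent space of the unitary group at `1`. -/
abbrev Lie : Submodule ℝ E := skewAdjoint.submodule ℝ E

variable {E}

/-- The skew part. -/
def skewP : E →ₗ[ℝ] Lie E where
  toFun y := ⟨(2⁻¹ : ℝ) • (y - star y), by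
    show star ((2⁻¹ : ℝ) • (y - star y)) = -((2⁻¹ : ℝ) • (y - star y))
    rw [star_smul, star_trivial, star_sub, star_star, ← smul_neg, neg_sub]⟩
  map_add' y z := by
    ext1
    show (2⁻¹ : ℝ) • (y + z - star (y + z))
      = (2⁻¹ : ℝ) • (y - star y) + (2⁻¹ : ℝ) • (z - star z)
    rw [star_add, ← smul_add]
    congr 1
    abel
  map_smul' c y := by
    ext1
    show (2⁻¹ : ℝ) • (c • y - star (c • y)) = c • ((2⁻¹ : ℝ) • (y - star y))
    rw [star_smul, star_trivial, ← smul_sub, smul_comm]

theorem star_of_mem_lie (a : Lie E) : star (a : E) = -(a : E) := a.2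

theorem skewP_coe (a : Lie E) : skewP (a : E) = a := by
  ext1
  show (2⁻¹ : ℝ) • ((a : E) - star (a : E)) = a
  rw [star_of_mem_lie, sub_neg_eq_add, ← two_smul ℝ, smul_smul]
  norm_num

/-- The commutator map. -/
def adLie (a : Lie E) : Lie E →ₗ[ℝ] Lie E where
  toFun z := ⟨(z : E) * a - a * z, by
    show star ((z : E) * a - a * z) = -((z : E) * a - a * z)
    simp [star_of_mem_lie]⟩
  map_add' y z := by ext1; simp [add_mul, mul_add]; abel
  map_smul' c y := by ext1; simp [smul_sub]

variable (E) in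
/-- The commutator maps of the tangent space have trace zero. -/
def TraceFree : Prop := ∀ a : Lie E, LinearMap.trace ℝ (Lie E) (adLie a) = 0

/-- The tangent map of `skewP` along right invariant fields. -/
def kapMap (y : E) : Lie E →ₗ[ℝ] Lie E :=
  skewP ∘ₗ (LinearMap.mulRight ℝ y) ∘ₗ (Lie E).subtype

theorem kapMap_one : kapMap (1 : E) = LinearMap.id := by
  ext1 a
  simp [kapMap, skewP_coe]

variable [FiniteDimensional ℝ E]

/-- A linear map from the tangent space is determined by its values; its matrix. -/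
theorem det_eq_matrix (T : Lie E →ₗ[ℝ] Lie E) :
    LinearMap.det T = (Matrix.of fun i α => (Module.finBasis ℝ (Lie E)).equivFun
      (T (Module.finBasis ℝ (Lie E) α)) i).det := by
  rw [← LinearMap.det_toMatrix (Module.finBasis ℝ (Lie E))]
  congr 1
  ext i α
  simp [LinearMap.toMatrix_apply]

theorem continuous_det_kapMap : Continuous fun y : E => LinearMap.det (kapMap y) := by
  simp only [det_eq_matrix]
  refine Continuous.matrix_det (continuous_matrix fun i α => ?_)
  exact (continuous_apply i).comp ((((Module.finBasis ℝ (Lie E)).equivFun.toLinearMap ∘ₗ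
    (skewP : E →ₗ[ℝ] Lie E)).continuous_of_finiteDimensional).comp
      (continuous_const.mul continuous_id))

omit [FiniteDimensional ℝ E] in
theorem eq_one_or_norm_eq_two {y : E} (hy : y ∈ unitary E) (hs : star y = y) :
    y = 1 ∨ ‖y - 1‖ = 2 := by
  have h2 : y * y = 1 := by
    have := (Unitary.mem_iff.1 hy).1
    rwa [hs] at this
  have hz : (y - 1) * (y - 1) = (-2 : ℝ) • (y - 1) := by
    rw [sub_mul, mul_sub, mul_one, one_mul, h2, neg_smul, two_smul]
    abel
  have := CStarRing.norm_star_mul_self (x := y - 1)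
  rw [star_sub, hs, star_one, hz, norm_smul] at this
  norm_num at this
  rcases this with h | h
  · exact Or.inr h.symm
  · exact Or.inl (sub_eq_zero.1 h)

/-- Outside the balls around the other fixed points, the skew part vanishes only at `1`. -/
theorem exists_skew_gap {r : ℝ} (hr : 0 < r) :
    ∃ δ : ℝ, 0 < δ ∧ ∀ y ∈ unitary E, r ≤ ‖y - 1‖ → ‖y - 1‖ ≤ 1 →
      δ ≤ ‖(Module.finBasis ℝ (Lie E)).equivFun (skewP y)‖ := by
  have : ProperSpace E := FiniteDimensional.proper_real E
  set S : Set E := {y | y ∈ unitary E ∧ r ≤ ‖y - 1‖ ∧ ‖y - 1‖ ≤ 1} with hS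
  have hSc : IsCompact S := by
    refine Metric.isCompact_of_isClosed_isBounded ?_ (isBounded_iff_forall_norm_le.2
      ⟨1, fun u hu => norm_unitary_le ⟨u, hu.1⟩⟩)
    have hn : Continuous fun y : E => ‖y - 1‖ := (continuous_id.sub continuous_const).norm
    exact isClosed_unitary.inter ((isClosed_le continuous_const hn).inter
      (isClosed_le hn continuous_const))
  have hc : Continuous fun y : E => ‖(Module.finBasis ℝ (Lie E)).equivFun (skewP y)‖ :=
    (((Module.finBasis ℝ (Lie E)).equivFun.toLinearMap ∘ₗ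
      (skewP : E →ₗ[ℝ] Lie E)).continuous_of_finiteDimensional).norm
  rcases S.eq_empty_or_nonempty with h | h
  · exact ⟨1, one_pos, fun y h1 h2 h3 => absurd (show y ∈ S from ⟨h1, h2, h3⟩) (by simp [h])⟩
  obtain ⟨y₀, hy₀, hmin⟩ := hSc.exists_isMinOn h hc.continuousOn
  refine ⟨_, ?_, fun y h1 h2 h3 => hmin (show y ∈ S from ⟨h1, h2, h3⟩)⟩
  refine (norm_nonneg _).lt_of_ne fun h0 => ?_
  have h1 : skewP y₀ = 0 := by
    simpa using (norm_eq_zero.1 h0.symm)
  have h2 : star y₀ = y₀ := by
    have := congrArg Subtype.val h1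
    change (2⁻¹ : ℝ) • (y₀ - star y₀) = 0 at this
    rw [smul_eq_zero] at this
    exact (sub_eq_zero.1 (this.resolve_left (by norm_num))).symm
  rcases eq_one_or_norm_eq_two hy₀.1 h2 with h3 | h3
  · have := hy₀.2.1
    rw [h3] at this
    simp at this
    linarith
  · linarith [hy₀.2.2]

/-- A density supported near `1` with positive mass, whose integral against the Jacobian
determinant of a smooth family of self maps does not depend on the parameter. -/
theorem exists_density (htr : TraceFree E) {c : ℝ} (hc : 0 < c) :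
    ∃ φ : E → ℝ, Continuous φ ∧ (∀ y ∈ unitary E, c ≤ ‖y - 1‖ → φ y = 0) ∧
      (0 < ∫ y, φ ((y : unitary E) : E) ∂haarK E) ∧
      ∀ F : ℝ × E → E, ContDiff ℝ 2 F → (∀ s, ∀ x : unitary E, F (s, (x : E)) ∈ unitary E) →
        ∀ J : ℝ → unitary E → (Lie E →ₗ[ℝ] Lie E),
          (∀ s (x : unitary E) (a : Lie E),
            fderiv ℝ F (s, (x : E)) (0, (a : E) * x) = (J s x a : E) * F (s, (x : E))) →
          ∀ s, ∫ x, φ (F (s, ((x : unitary E) : E))) * LinearMap.det (J s x) ∂haarK E
            = ∫ x, φ (F (0, ((x : unitary E) : E))) * LinearMap.det (J 0 x) ∂haarK E := by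
  set b := Module.finBasis ℝ (Lie E) with hb
  set Q : E →L[ℝ] (Fin (Module.finrank ℝ (Lie E)) → ℝ) :=
    LinearMap.toContinuousLinearMap (b.equivFun.toLinearMap ∘ₗ (skewP : E →ₗ[ℝ] Lie E)) with hQ
  obtain ⟨ρ, hρ, hpos⟩ : ∃ ρ > 0, ∀ y : E, ‖y - 1‖ < ρ → 0 < LinearMap.det (kapMap y) := by
    have h1 : (0 : ℝ) < LinearMap.det (kapMap (1 : E)) := by simp [kapMap_one]
    obtain ⟨ρ, hρ, h⟩ := Metric.eventually_nhds_iff.1
      ((continuous_det_kapMap (E := E)).continuousAt.eventually (eventually_gt_nhds h1))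
    exact ⟨ρ, hρ, fun y hy => h (by rwa [dist_eq_norm])⟩
  set r := min (min ρ c) (1 / 2) / 2 with hr
  have hr0 : 0 < r := by positivity
  have hm1 := min_le_left (min ρ c) (1 / 2)
  have hm2 := min_le_right (min ρ c) (1 / 2)
  have hm3 := min_le_left ρ c
  have hm4 := min_le_right ρ c
  obtain ⟨δ, hδ, hgap⟩ := exists_skew_gap (E := E) hr0
  let χ : ContDiffBump (1 : E) := ⟨1 / 2, 1, by norm_num, by norm_num⟩
  let ψ : ContDiffBump (0 : Fin (Module.finrank ℝ (Lie E)) → ℝ) :=
    ⟨δ / 2, δ, by linarith, by linarith⟩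
  have hψ : ∀ y ∈ unitary E, ψ (Q y) ≠ 0 → ‖y - 1‖ < r ∨ 1 < ‖y - 1‖ := by
    intro y hy h
    by_contra h'
    rw [not_or, not_lt, not_lt] at h'
    refine h (ψ.zero_of_le_dist ?_)
    rw [dist_zero_right]
    exact hgap y hy h'.1 h'.2
  set φ : E → ℝ := fun y => χ y * ψ (Q y) * LinearMap.det (kapMap y) with hφ
  have hφc : Continuous φ := (χ.continuous.mul (ψ.continuous.comp Q.continuous)).mul
    continuous_det_kapMap
  have hzero : ∀ y ∈ unitary E, r ≤ ‖y - 1‖ → φ y = 0 := by
    intro y hy h
    by_cases h1 : ψ (Q y) = 0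
    · simp [hφ, h1]
    · rcases hψ y hy h1 with h2 | h2
      · linarith
      · simp [hφ, χ.zero_of_le_dist (show (1 : ℝ) ≤ dist y 1 by rw [dist_eq_norm]; linarith)]
  refine ⟨φ, hφc, fun y hy h => hzero y hy (by linarith), ?_, fun F hF hFK J hJ s => ?_⟩
  · refine integral_pos_of_integrable_nonneg_nonzero (hφc.comp continuous_subtype_val)
      (integrable_of_continuous (hφc.comp continuous_subtype_val)) (fun y => ?_) (x := 1) ?_
    · by_cases h : r ≤ ‖((y : unitary E) : E) - 1‖
      · simp [hzero _ y.2 h]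
      · exact mul_nonneg (mul_nonneg χ.nonneg ψ.nonneg) (hpos _ (by linarith [not_le.1 h])).le
    · simp only [hφ, OneMemClass.coe_one]
      rw [χ.one_of_mem_closedBall (mem_closedBall_self χ.rIn_pos.le), kapMap_one, LinearMap.det_id]
      have : Q 1 = 0 := by
        have h1 : skewP (1 : E) = 0 := by
          ext1
          show (2⁻¹ : ℝ) • ((1 : E) - star (1 : E)) = 0
          simp
        simp [hQ, h1]
      rw [this, ψ.one_of_mem_closedBall (mem_closedBall_self ψ.rIn_pos.le)]
      norm_num
  set e : Fin (Module.finrank ℝ (Lie E)) → E := fun α => (b α : E) with he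
  set f : ℝ × E → Fin (Module.finrank ℝ (Lie E)) → ℝ := fun p => Q (F p) with hf
  set τ : ℝ × E → ℝ := fun p => χ (F p) * ψ (f p) with hτ
  have hfd : ∀ p u, fderiv ℝ f p u = Q (fderiv ℝ F p u) := fun p u => by
    have h := (Q.hasFDerivAt.comp p ((hF.differentiable (by norm_num)) p).hasFDerivAt).fderiv
    exact congrArg (fun L : ℝ × E →L[ℝ] _ => L u) h
  have hjac : ∀ t (x : unitary E), τ (t, (x : E)) * (jac e f (t, (x : E))).det
      = φ (F (t, (x : E))) * LinearMap.det (J t x) := by
    intro t x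
    simp only [hτ, hφ, hf]
    rw [mul_assoc _ (LinearMap.det (kapMap _)), ← LinearMap.det_comp, det_eq_matrix]
    congr 2
    ext i α
    simp only [jac, Matrix.of_apply]
    rw [show (fun p => Q (F p)) = f from rfl, hfd, he, hJ]
    rfl
  have key := homotopy (e := e) (fun α => (b α).2) (fun α β γ => b.repr (adLie (b α) (b β)) γ)
    (fun α β => ?_) (fun α β γ => ?_) (fun α => ?_) (f := f)
    ((Q.contDiff).comp hF) (τ := τ) ?_ ?_ s
  · simpa only [hjac] using key
  · have := congrArg Subtype.val (b.sum_repr (adLie (b α) (b β)))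
    simp only [Submodule.coe_sum, Submodule.coe_smul] at this
    simpa [he, adLie] using this.symm
  · have h1 : adLie (b α) (b β) = -adLie (b β) (b α) := by
      ext1
      simp [adLie]
    simp [h1]
  · rw [← htr (b α), LinearMap.trace_eq_matrix_trace ℝ b, Matrix.trace]
    simp [LinearMap.toMatrix_apply]
  · exact ((χ.contDiff.comp hF).of_le (by norm_num)).mul
      ((ψ.contDiff.comp ((Q.contDiff).comp hF)).of_le (by norm_num))
  · intro t x
    set p : ℝ × E := (t, (x : E)) with hp
    refine ⟨fun i => χ (F p) * fderiv ℝ ψ (f p) (Pi.single i 1), fun u => ?_⟩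
    have dF := ((hF.differentiable (by norm_num)) p).hasFDerivAt
    have df : HasFDerivAt f (fderiv ℝ f p) p :=
      (((Q.contDiff).comp hF).differentiable (by norm_num : (2 : WithTop ℕ∞) ≠ 0) p).hasFDerivAt
    have dχ : HasFDerivAt χ (fderiv ℝ χ (F p)) (F p) :=
      (χ.contDiff (n := 1)).differentiable one_ne_zero _ |>.hasFDerivAt
    have dψ : HasFDerivAt ψ (fderiv ℝ ψ (f p)) (f p) :=
      (ψ.contDiff (n := 1)).differentiable one_ne_zero _ |>.hasFDerivAt
    have hd := ((dχ.comp p dF).mul (dψ.comp p df)).fderiv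
    simp only [Pi.mul_def, Function.comp_def] at hd
    rw [hτ, hd]
    have hz : ψ (f p) * fderiv ℝ χ (F p) (fderiv ℝ F p u) = 0 := by
      by_cases h1 : ψ (Q (F p)) = 0
      · simp [hf, h1]
      · have : fderiv ℝ χ (F p) = 0 := by
          rcases hψ _ (hFK t x) h1 with h2 | h2
          · refine ((hasFDerivAt_const (1 : ℝ) (F p)).congr_of_eventuallyEq ?_).fderiv
            exact χ.eventuallyEq_one_of_mem_ball (by rw [mem_ball, dist_eq_norm]; show _ < (1 / 2 : ℝ); linarith)
          · refine ((hasFDerivAt_const (0 : ℝ) (F p)).congr_of_eventuallyEq ?_).fderiv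
            filter_upwards [(continuous_id.sub continuous_const).norm.continuousAt.eventually
              (eventually_gt_nhds h2)] with y hy
            exact χ.zero_of_le_dist (by rw [dist_eq_norm]; exact hy.le)
        simp [this]
    simp only [_root_.add_apply, _root_.smul_apply, ContinuousLinearMap.comp_apply,
      smul_eq_mul, hz, add_zero]
    rw [show fderiv ℝ ψ (f p) (fderiv ℝ f p u)
        = fderiv ℝ ψ (f p) (∑ i, fderiv ℝ f p u i • Pi.single i (1 : ℝ)) by rw [← pi_eq_sum_univ'],
      map_sum, Finset.mul_sum]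
    refine Finset.sum_congr rfl fun i _ => ?_
    rw [map_smul, smul_eq_mul]
    ring

end

end Vale.Agent.P174.Degree
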