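import Mathlib

/-!
# Degrees on compact unitary groups: the divergence identity

For a map `f : ℝ × E → ℝ^ι` and `τ` whose differential factors through that of `f`, the Haar
integral over the unitary group of `τ` times the Jacobian determinant of `f` along right invariant
fields does not depend on the parameter.
-/

namespace Vale.Agent.P174.Degree

open MeasureTheory Matrix Filter Topology

noncomputable section

variable {E : Type} [CStarAlgebra E]

scoped instance unitaryMeasurable : MeasurableSpace (unitary E) := borel _

scoped instance unitaryBorel : BorelSpace (unitary E) := ⟨rfl⟩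

theorem norm_unitary_le (u : unitary E) : ‖(u : E)‖ ≤ 1 := by
  nontriviality E
  exact (CStarRing.norm_coe_unitary u).le

scoped instance unitaryCompact [FiniteDimensional ℝ E] : CompactSpace (unitary E) := by
  have : ProperSpace E := FiniteDimensional.proper_real E
  exact isCompact_iff_compactSpace.1 (Metric.isCompact_of_isClosed_isBounded isClosed_unitary
    (isBounded_iff_forall_norm_le.2 ⟨1, fun u hu => norm_unitary_le ⟨u, hu⟩⟩))

/-- The rational structure, needed for the exponential. -/
@[instance_reducible]
def ratAlgebra : NormedAlgebra ℚ E := NormedAlgebra.restrictScalars ℚ ℝ E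

scoped[Vale.Agent.P174.Degree] attribute [instance] ratAlgebra

variable [FiniteDimensional ℝ E]

variable (E) in
/-- The Haar probability measure of the unitary group. -/
def haarK : Measure (unitary E) := Measure.haarMeasure ⊤

instance : IsProbabilityMeasure (haarK E) :=
  ⟨by rw [← TopologicalSpace.PositiveCompacts.coe_top (α := unitary E)]
      exact Measure.haarMeasure_self⟩

instance : (haarK E).IsHaarMeasure := by unfold haarK; infer_instance

instance : (haarK E).IsMulRightInvariant := by
  refine ⟨fun g => ?_⟩
  have hl : Measure.IsMulLeftInvariant ((haarK E).map (· * g)) := by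
    refine ⟨fun a => ?_⟩
    rw [Measure.map_map (measurable_const_mul a) (measurable_mul_const g)]
    conv_rhs => rw [← map_mul_left_eq_self (haarK E) a]
    rw [Measure.map_map (measurable_mul_const g) (measurable_const_mul a)]
    congr 1
    funext x
    simp [mul_assoc]
  have hp : IsProbabilityMeasure ((haarK E).map (· * g)) :=
    Measure.isProbabilityMeasure_map (measurable_mul_const g).aemeasurable
  have hh : ((haarK E).map (· * g)).IsHaarMeasure :=
    Measure.isHaarMeasure_map_mul_right _ g
  exact Measure.isHaarMeasure_eq_of_isProbabilityMeasure _ _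

theorem integrable_of_continuous {g : unitary E → ℝ} (hg : Continuous g) :
    Integrable g (haarK E) :=
  hg.integrable_of_hasCompactSupport (HasCompactSupport.of_compactSpace g)

/-- Differentiation under the Haar integral. -/
theorem hasDerivAt_integralK {G G' : ℝ → unitary E → ℝ}
    (hG : Continuous fun q : ℝ × unitary E => G q.1 q.2)
    (hG' : Continuous fun q : ℝ × unitary E => G' q.1 q.2)
    (hd : ∀ s x, HasDerivAt (fun t => G t x) (G' s x) s) (s : ℝ) :
    HasDerivAt (fun t => ∫ x, G t x ∂haarK E) (∫ x, G' s x ∂haarK E) s := by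
  obtain ⟨C, hC⟩ := ((isCompact_closedBall s 1).prod (isCompact_univ (X := unitary E))).bddAbove_image
    (f := fun q : ℝ × unitary E => ‖G' q.1 q.2‖) hG'.norm.continuousOn
  refine (hasDerivAt_integral_of_dominated_loc_of_deriv_le (bound := fun _ => C)
    (Metric.closedBall_mem_nhds s one_pos)
    (Eventually.of_forall fun t => ((hG.comp (Continuous.prodMk_right t)).aestronglyMeasurable))
    (integrable_of_continuous (hG.comp (Continuous.prodMk_right s)))
    ((hG'.comp (Continuous.prodMk_right s)).aestronglyMeasurable)
    (Eventually.of_forall fun x t ht => hC ⟨(t, x), ⟨ht, trivial⟩, rfl⟩)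
    (integrable_const C) (Eventually.of_forall fun x t _ => hd t x)).2

/-- Derivatives along right invariant fields have mean zero. -/
theorem integral_lie_zero {g : E → ℝ} (hg : ContDiff ℝ 1 g) {a : E} (ha : a ∈ skewAdjoint E) :
    ∫ x, fderiv ℝ g (x : E) (a * x) ∂haarK E = 0 := by
  let u : ℝ → unitary E := fun t =>
    ⟨NormedSpace.exp (t • a),
      NormedSpace.exp_mem_unitary_of_mem_skewAdjoint (skewAdjoint.smul_mem t ha)⟩
  have hu : Continuous fun t : ℝ => NormedSpace.exp (t • a) :=
    NormedSpace.exp_continuous.comp (continuous_id.smul continuous_const)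
  have hgd : Continuous (fderiv ℝ g) := hg.continuous_fderiv one_ne_zero
  have he : ∀ t : ℝ, HasDerivAt (fun r : ℝ => NormedSpace.exp (r • a))
      (a * NormedSpace.exp (t • a)) t := fun t => hasDerivAt_exp_smul_const' a t
  have h := hasDerivAt_integralK
    (G := fun (t : ℝ) (x : unitary E) => g (NormedSpace.exp (t • a) * (x : E)))
    (G' := fun (t : ℝ) (x : unitary E) => fderiv ℝ g (NormedSpace.exp (t • a) * (x : E))
      (a * NormedSpace.exp (t • a) * (x : E)))
    (hg.continuous.comp ((hu.comp continuous_fst).mul (continuous_subtype_val.comp continuous_snd)))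
    ((hgd.comp ((hu.comp continuous_fst).mul (continuous_subtype_val.comp continuous_snd))).clm_apply
      ((continuous_const.mul (hu.comp continuous_fst)).mul
        (continuous_subtype_val.comp continuous_snd)))
    (fun (t : ℝ) (x : unitary E) => HasFDerivAt.comp_hasDerivAt (f := fun r : ℝ => NormedSpace.exp (r • a) * (x : E)) t
      (hg.differentiable one_ne_zero (NormedSpace.exp (t • a) * (x : E))).hasFDerivAt
      ((he t).mul_const (x : E))) 0
  have hc : (fun t : ℝ => ∫ x, g (NormedSpace.exp (t • a) * ((x : unitary E) : E)) ∂haarK E)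
      = fun _ => ∫ x, g ((x : unitary E) : E) ∂haarK E := by
    funext t
    exact integral_mul_left_eq_self (fun x : unitary E => g (x : E)) (u t)
  rw [hc] at h
  simpa using (h.unique (hasDerivAt_const (0 : ℝ) _))

section Det

variable {ι : Type} [Fintype ι] [DecidableEq ι]

/-- The derivative of a determinant, by columns. -/
theorem hasDerivAt_det {M : ℝ → Matrix ι ι ℝ} {M' : Matrix ι ι ℝ} {s : ℝ}
    (h : ∀ i j, HasDerivAt (fun t => M t i j) (M' i j) s) :
    HasDerivAt (fun t => (M t).det) (∑ j, ((M s).updateCol j fun i => M' i j).det) s := by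
  simp only [Matrix.det_apply']
  refine (HasDerivAt.fun_sum fun σ _ =>
    (HasDerivAt.fun_finsetProd fun j _ => h (σ j) j).const_mul _).congr_deriv ?_
  rw [Finset.sum_comm]
  refine Finset.sum_congr rfl fun σ _ => ?_
  rw [Finset.mul_sum]
  refine Finset.sum_congr rfl fun j _ => ?_
  rw [← Finset.mul_prod_erase Finset.univ _ (Finset.mem_univ j), Matrix.updateCol_self, smul_eq_mul,
    mul_comm (M' (σ j) j)]
  congr 2
  exact Finset.prod_congr rfl fun k hk => (Matrix.updateCol_ne (Finset.ne_of_mem_erase hk)).symm

/-- Two columns replaced. -/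
def pair2 (M : Matrix ι ι ℝ) (α β : ι) (v z : ι → ℝ) : ℝ :=
  ((M.updateCol α v).updateCol β z).det

/-- The two-column determinant with the second entry a column of the matrix. -/
theorem pair2_col (M : Matrix ι ι ℝ) {α β : ι} (h : α ≠ β) (v : ι → ℝ) (γ : ι) :
    pair2 M α β v (fun i => M i γ)
      = if γ = β then M.cramer v α else if γ = α then -M.cramer v β else 0 := by
  unfold pair2
  split_ifs with h1 h2
  · subst h1
    rw [Matrix.cramer_apply]
    congr 1
    ext i j
    by_cases hj : j = γ
    · subst hj; simp [Matrix.updateCol_ne h.symm]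
    · simp [Matrix.updateCol_ne hj]
  · subst h2
    rw [Matrix.cramer_apply, ← neg_eq_iff_eq_neg]
    have hp : (M.updateCol β v) = ((M.updateCol γ v).updateCol β fun i => M i γ).submatrix id
        (Equiv.swap γ β) := by
      ext i j
      by_cases hj : j = γ
      · subst hj; simp [Matrix.updateCol_ne h]
      · by_cases hj' : j = β
        · subst hj'; simp [Matrix.updateCol_ne h]
        · simp [Equiv.swap_apply_of_ne_of_ne hj hj', Matrix.updateCol_ne hj, Matrix.updateCol_ne hj']
    rw [hp, Matrix.det_permute']
    simp [Equiv.Perm.sign_swap h]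
  · refine Matrix.det_zero_of_column_eq (i := β) (j := γ) (Ne.symm h1) fun k => ?_
    simp [Matrix.updateCol_ne h1, Matrix.updateCol_ne h2]

/-- The second order terms cancel against a trace-free bracket. -/
theorem pair2_sum_zero (M : Matrix ι ι ℝ) (v : ι → ℝ) (C : ι → ι → ι → ℝ) (H : ι → ι → ι → ℝ)
    (hH : ∀ α β i, H α β i - H β α i = ∑ γ, C α β γ * M i γ) (hC : ∀ α β γ, C α β γ = -C β α γ)
    (htr : ∀ α, ∑ β, C α β β = 0) :
    ∑ α, ∑ β ∈ Finset.univ.erase α, pair2 M α β v (H α β) = 0 := by
  have hlin : ∀ α β, α ≠ β →
      pair2 M α β v (H α β) - pair2 M α β v (H β α) = C α β β * M.cramer v α - C α β α * M.cramer v β := by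
    intro α β hab
    have : H α β = H β α + ∑ γ, C α β γ • fun i => M i γ := by
      funext i
      simp only [Pi.add_apply, Finset.sum_apply, Pi.smul_apply, smul_eq_mul, ← hH]
      ring
    unfold pair2
    rw [this, Matrix.det_updateCol_add, add_sub_cancel_left]
    have e : ((M.updateCol α v).updateCol β (∑ γ, C α β γ • fun i => M i γ)).det
        = ∑ γ, C α β γ * pair2 M α β v (fun i => M i γ) := by
      simp only [pair2, ← Matrix.cramer_apply, map_sum, map_smul, Finset.sum_apply, Pi.smul_apply,
        smul_eq_mul]
    rw [e]
    simp only [pair2_col M hab v]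
    rw [Finset.sum_eq_add β α hab.symm (fun c _ hc => by simp [hc.1, hc.2]) (by simp) (by simp)]
    simp [hab]
    ring
  have hswap : ∀ α β, α ≠ β → pair2 M β α v (H β α) = -pair2 M α β v (H β α) := by
    intro α β hab
    unfold pair2
    have hp : ((M.updateCol β v).updateCol α (H β α))
        = ((M.updateCol α v).updateCol β (H β α)).submatrix id (Equiv.swap α β) := by
      ext i j
      by_cases hj : j = α
      · subst hj; simp
      · by_cases hj' : j = β
        · subst hj'; simp [hj, Matrix.updateCol_ne hab]
        · simp [Equiv.swap_apply_of_ne_of_ne hj hj', Matrix.updateCol_ne hj, Matrix.updateCol_ne hj']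
    rw [hp, Matrix.det_permute']
    simp [Equiv.Perm.sign_swap hab]
  let Z : ι → ι → ℝ := fun α β => if α = β then 0 else pair2 M α β v (H α β)
  have hZ : ∀ α, ∑ β ∈ Finset.univ.erase α, pair2 M α β v (H α β) = ∑ β, Z α β := fun α => by
    rw [← Finset.add_sum_erase Finset.univ _ (Finset.mem_univ α)]
    simp only [Z, if_pos, zero_add]
    exact Finset.sum_congr rfl fun β hβ => (if_neg (Finset.ne_of_mem_erase hβ).symm).symm
  simp only [hZ]
  have key : ∀ α β, Z α β + Z β α = C α β β * M.cramer v α - C α β α * M.cramer v β := by
    intro α β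
    by_cases h : α = β
    · subst h
      simp [Z]
    · simp only [Z, if_neg h, if_neg (Ne.symm h)]
      rw [hswap α β h, ← sub_eq_add_neg]
      exact hlin α β h
  have h2 : ∑ α, ∑ β, (Z α β + Z β α) = 0 := by
    simp only [key, Finset.sum_sub_distrib]
    rw [sub_eq_zero]
    calc ∑ α, ∑ β, C α β β * M.cramer v α = 0 := by simp [← Finset.sum_mul, htr]
      _ = ∑ α, ∑ β, C α β α * M.cramer v β := by
        rw [Finset.sum_comm]
        refine (Finset.sum_eq_zero fun β _ => ?_).symm
        rw [← Finset.sum_mul]
        simp [hC _ β, htr β]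
  simp only [Finset.sum_add_distrib] at h2
  rw [Finset.sum_comm (f := fun α β => Z β α)] at h2
  linarith

end Det

end

end Vale.Agent.P174.Degree
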