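import Vale.Agent.P174.Degree.Word

/-!
# The mean Jacobian does not depend on the coefficients, and vanishes for an omitted value
-/

namespace Vale.Agent.P174.Degree

open MeasureTheory Matrix Filter Topology

noncomputable section

variable {A : Type} [CStarAlgebra A] [FiniteDimensional ℝ A] {n : ℕ}

variable (A) in
/-- The unitary group is generated by the exponentials of skew adjoint elements. -/
def ExpGenerated : Prop :=
  Subgroup.closure {u : unitary A | ∃ h ∈ skewAdjoint A, (u : A) = NormedSpace.exp h} = ⊤

omit [FiniteDimensional ℝ A] in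
theorem continuous_qel {X : Type} [TopologicalSpace X] (t : Tag n) {a : X → unitary A}
    {x : X → unitary (Fin n → A)} {P : X → Fin n → unitary A} (ha : Continuous a)
    (hx : Continuous x) (hP : Continuous P) : Continuous fun p => qel t (a p) (x p) (P p) := by
  simp only [qel]
  have h := ((continuous_apply t.1).comp hP).mul ha
  rcases t with ⟨i, j, e⟩
  cases e
  · simp only [Bool.false_eq_true, if_false]
    exact h.mul ((continuous_apply j).comp (continuous_cmp.comp hx)).inv
  · simp only [if_true]
    exact h

omit [FiniteDimensional ℝ A] in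
theorem continuous_stepU {X : Type} [TopologicalSpace X] (t : Tag n) {a : X → unitary A}
    {x : X → unitary (Fin n → A)} {P : X → Fin n → unitary A} (ha : Continuous a)
    (hx : Continuous x) (hP : Continuous P) : Continuous fun p => stepU t (a p) (x p) (P p) := by
  refine hP.update t.1 ((((continuous_apply t.1).comp hP).mul ha).mul ?_)
  have h := (continuous_apply t.2.1).comp (continuous_cmp.comp hx)
  rcases t with ⟨i, j, e⟩
  cases e
  · simp only [pw, Bool.false_eq_true, if_false]
    exact h.inv
  · simp only [pw, if_true]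
    exact h

omit [FiniteDimensional ℝ A] in
theorem continuous_valU {X : Type} [TopologicalSpace X] {x : X → unitary (Fin n → A)}
    (hx : Continuous x) : ∀ (l : List (Tag n × unitary A)) {P : X → Fin n → unitary A},
      Continuous P → Continuous fun p => valU (x p) l (P p)
  | [], _, hP => hP
  | q :: l, _, hP => continuous_valU hx l (continuous_stepU q.1 continuous_const hx hP)

variable (A n) in
/-- The dimension of the tangent space. -/
abbrev dimL : ℕ := Module.finrank ℝ (Lie (Fin n → A))

/-- The matrix of a letter's contribution. -/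
def tm (t : Tag n) (u : unitary A) : Matrix (Fin (dimL A n)) (Fin (dimL A n)) ℝ :=
  LinearMap.toMatrix (Module.finBasis ℝ _) (Module.finBasis ℝ _) (term t u)

/-- The matrix of the Jacobian. -/
def jm (x : unitary (Fin n → A)) (l : List (Tag n × unitary A)) (P : Fin n → unitary A) :
    Matrix (Fin (dimL A n)) (Fin (dimL A n)) ℝ :=
  LinearMap.toMatrix (Module.finBasis ℝ _) (Module.finBasis ℝ _) (jsum x l P)

theorem det_jm (x : unitary (Fin n → A)) (l : List (Tag n × unitary A)) (P : Fin n → unitary A) :
    (jm x l P).det = LinearMap.det (jsum x l P) := LinearMap.det_toMatrix _ _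

theorem jm_nil (x : unitary (Fin n → A)) (P : Fin n → unitary A) : jm x [] P = 0 := by
  simp [jm, jsum]

theorem jm_cons (x : unitary (Fin n → A)) (q : Tag n × unitary A) (l : List (Tag n × unitary A))
    (P : Fin n → unitary A) :
    jm x (q :: l) P = tm q.1 (qel q.1 q.2 x P) + jm x l (stepU q.1 q.2 x P) := by
  simp [jm, jsum, tm]

theorem continuous_tm (t : Tag n) :
    Continuous (tm t : unitary A → Matrix (Fin (dimL A n)) (Fin (dimL A n)) ℝ) := by
  refine continuous_matrix fun i j => ?_
  simp only [tm, LinearMap.toMatrix_apply]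
  refine (LinearMap.continuous_of_finiteDimensional
    ((Module.finBasis ℝ (Lie (Fin n → A))).coord i)).comp ?_
  refine Continuous.subtype_mk ?_ _
  exact continuous_pi fun k => by
    by_cases hk : k = t.1
    · subst hk
      simp only [Pi.single_eq_same]
      exact ((continuous_subtype_val.mul continuous_const).mul
        (continuous_subtype_val.star)).const_smul (sg t.2.2)
    · simp only [Pi.single_eq_of_ne hk]
      exact continuous_const

theorem continuous_jm {X : Type} [TopologicalSpace X] {x : X → unitary (Fin n → A)}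
    (hx : Continuous x) : ∀ (l : List (Tag n × unitary A)) {P : X → Fin n → unitary A},
      Continuous P → Continuous fun p => jm (x p) l (P p)
  | [], _, _ => by
    simp only [jm_nil]
    exact continuous_const
  | q :: l, _, hP => by
    simp only [jm_cons]
    exact ((continuous_tm q.1).comp (continuous_qel q.1 continuous_const hx hP)).add
      (continuous_jm hx l (continuous_stepU q.1 continuous_const hx hP))

theorem continuous_detJ (l : List (Tag n × unitary A)) :
    Continuous fun x : unitary (Fin n → A) => LinearMap.det (jsum x l 1) := by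
  simp only [← det_jm]
  exact (continuous_jm continuous_id l continuous_const).matrix_det

/-- The mean Jacobian. -/
def meanJac (l : List (Tag n × unitary A)) : ℝ :=
  ∫ x, LinearMap.det (jsum x l 1) ∂haarK (Fin n → A)

/-- The weighted degree integral. -/
def degI (φ : (Fin n → A) → ℝ) (l : List (Tag n × unitary A)) (e : unitary (Fin n → A)) : ℝ :=
  ∫ x, φ ((toK (valU x l 1) * e : unitary (Fin n → A)) : Fin n → A)
    * LinearMap.det (jsum x l 1) ∂haarK (Fin n → A)

/-- The invariance property of a density. -/
def Invariant (φ : (Fin n → A) → ℝ) : Prop :=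
  ∀ F : ℝ × (Fin n → A) → (Fin n → A), ContDiff ℝ 2 F →
    (∀ s, ∀ x : unitary (Fin n → A), F (s, (x : Fin n → A)) ∈ unitary (Fin n → A)) →
      ∀ J : ℝ → unitary (Fin n → A) → (Lie (Fin n → A) →ₗ[ℝ] Lie (Fin n → A)),
        (∀ s (x : unitary (Fin n → A)) (a : Lie (Fin n → A)),
          fderiv ℝ F (s, (x : Fin n → A)) (0, (a : Fin n → A) * x)
            = (J s x a : Fin n → A) * F (s, (x : Fin n → A))) →
        ∀ s, ∫ x, φ (F (s, ((x : unitary (Fin n → A)) : Fin n → A))) * LinearMap.det (J s x)
              ∂haarK (Fin n → A)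
          = ∫ x, φ (F (0, ((x : unitary (Fin n → A)) : Fin n → A))) * LinearMap.det (J 0 x)
              ∂haarK (Fin n → A)

/-- Smooth paths of coefficients do not change the degree integral. -/
theorem degI_path {φ : (Fin n → A) → ℝ} (hφ : Invariant φ) (L : List (Tag n × (ℝ → unitary A)))
    (hL : ∀ q ∈ L, ContDiff ℝ 2 fun s => (q.2 s : A)) (ε : ℝ → unitary (Fin n → A))
    (hε : ContDiff ℝ 2 fun s => (ε s : Fin n → A)) (s : ℝ) :
    degI φ (L.map fun q => (q.1, q.2 s)) (ε s) = degI φ (L.map fun q => (q.1, q.2 0)) (ε 0) := by
  let F : ℝ × (Fin n → A) → (Fin n → A) := fun p =>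
    valA (L.map fun q => (q.1, (q.2 p.1 : A))) p.2 1 * (ε p.1 : Fin n → A)
  have hval : ∀ t (x : unitary (Fin n → A)), F (t, (x : Fin n → A))
      = ((toK (valU x (L.map fun q => (q.1, q.2 t)) 1) * ε t : unitary (Fin n → A)) : Fin n → A) := by
    intro t x
    show valA _ _ 1 * _ = _
    rw [show (1 : Fin n → A) = (toK (1 : Fin n → unitary A) : Fin n → A) from rfl,
      Submonoid.coe_mul, ← valA_coe x]
    simp [coeL, List.map_map, Function.comp_def]
  have hF : ContDiff ℝ 2 F := by
    refine ContDiff.mul ?_ (hε.comp contDiff_fst)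
    have := contDiff_valA (y := fun p : ℝ × (Fin n → A) => p.2) contDiff_snd
      (L.map fun q => (q.1, fun p : ℝ × (Fin n → A) => (q.2 p.1 : A)))
      (fun r hr => by
        obtain ⟨q, hq, rfl⟩ := List.mem_map.1 hr
        exact (hL q hq).comp contDiff_fst) (P := fun _ => 1) contDiff_const
    simpa [List.map_map, Function.comp_def] using this
  have h := hφ F hF (fun t x => by rw [hval]; exact SetLike.coe_mem _)
    (fun t x => jsum x (L.map fun q => (q.1, q.2 t)) 1) (fun t x a => ?_) s
  · simpa only [hval, degI] using h
  · refine (hasDerivAt_comp_line (g := F) ((hF.differentiable (by norm_num)) _) _).unique ?_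
    have := (valU_one_zero x a (L.map fun q => (q.1, q.2 t))).mul_const (ε t : Fin n → A)
    rw [hval, Submonoid.coe_mul, ← mul_assoc]
    refine this.congr_of_eventuallyEq (Eventually.of_forall fun r => ?_)
    simp [F, coeL, List.map_map, Function.comp_def]

theorem contDiff_exp_smul {B : Type} [CStarAlgebra B] (h : B) :
    ContDiff ℝ 2 fun s : ℝ => NormedSpace.exp (s • h) :=
  (contDiff_iff_contDiffAt.2 fun x => (NormedSpace.exp_analytic (𝕂 := ℝ) x).contDiffAt).comp
    (contDiff_id.smul contDiff_const)

theorem exp_smul_mem {B : Type} [CStarAlgebra B] {h : B} (hh : h ∈ skewAdjoint B) (s : ℝ) :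
    NormedSpace.exp (s • h) ∈ unitary B :=
  NormedSpace.exp_mem_unitary_of_mem_skewAdjoint (skewAdjoint.smul_mem s hh)

/-- One coefficient may be changed at will. -/
theorem degI_coeff (hgen : ExpGenerated A) {φ : (Fin n → A) → ℝ} (hφ : Invariant φ)
    (pre suf : List (Tag n × unitary A)) (t : Tag n) (a b : unitary A) (e : unitary (Fin n → A)) :
    degI φ (pre ++ (t, b * a) :: suf) e = degI φ (pre ++ (t, a) :: suf) e := by
  have hb : b ∈ Subgroup.closure {u : unitary A | ∃ h ∈ skewAdjoint A, (u : A) = NormedSpace.exp h} := by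
    rw [hgen]; trivial
  induction hb using Subgroup.closure_induction generalizing a with
  | mem u hu =>
    obtain ⟨h, hh, hu⟩ := hu
    let γ : ℝ → unitary A := fun s => ⟨_, exp_smul_mem hh s⟩ * a
    have h1 := degI_path hφ (pre.map (fun q => (q.1, fun _ => q.2)) ++ (t, γ) ::
      suf.map fun q => (q.1, fun _ => q.2)) (fun q hq => by
        simp only [List.mem_append, List.mem_cons, List.mem_map] at hq
        rcases hq with ⟨r, _, rfl⟩ | rfl | ⟨r, _, rfl⟩
        · exact (contDiff_const : ContDiff ℝ 2 fun _ : ℝ => (r.2 : A))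
        · exact (contDiff_exp_smul h).mul contDiff_const
        · exact (contDiff_const : ContDiff ℝ 2 fun _ : ℝ => (r.2 : A))) (fun _ => e) contDiff_const 1
    have e1 : γ 1 = u * a := by
      ext1
      simp [γ, hu]
    have e0 : γ 0 = a := by ext1; simp [γ, NormedSpace.exp_zero]
    simpa [List.map_map, Function.comp_def, e1, e0] using h1
  | one => simp
  | mul u v _ _ hu hv => rw [mul_assoc, hu, hv]
  | inv u _ hu =>
    have := hu (u⁻¹ * a)
    rw [mul_inv_cancel_left] at this
    exact this.symm

theorem degI_ones (hgen : ExpGenerated A) {φ : (Fin n → A) → ℝ} (hφ : Invariant φ)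
    (e : unitary (Fin n → A)) : ∀ (l pre : List (Tag n × unitary A)),
      degI φ (pre ++ l) e = degI φ (pre ++ l.map fun q => (q.1, 1)) e
  | [], _ => rfl
  | q :: l, pre => by
    have h1 := degI_coeff hgen hφ pre l q.1 1 q.2 e
    rw [mul_one, Prod.mk.eta] at h1
    rw [h1, List.map_cons, show pre ++ (q.1, 1) :: l = (pre ++ [(q.1, 1)]) ++ l by simp,
      degI_ones hgen hφ e l (pre ++ [(q.1, 1)])]
    simp

theorem degI_right (hgen : ExpGenerated A) {φ : (Fin n → A) → ℝ} (hφ : Invariant φ)
    (l : List (Tag n × unitary A)) (e : unitary (Fin n → A)) : degI φ l e = degI φ l 1 := by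
  suffices h : ∀ v : Fin n → unitary A, ∀ e : unitary (Fin n → A),
      degI φ l (toK v * e) = degI φ l e by
    have := h (cmp e) 1
    rwa [mul_one, toK_cmp] at this
  let S : Subgroup (Fin n → unitary A) :=
    { carrier := {v | ∀ e : unitary (Fin n → A), degI φ l (toK v * e) = degI φ l e}
      one_mem' := fun e => by rw [toK_one, one_mul]
      mul_mem' := fun {v w} hv hw e => by
        have : toK (v * w) = toK v * toK w := rfl
        rw [this, mul_assoc, hv, hw]
      inv_mem' := fun {v} hv e => by
        have h1 := hv (toK v⁻¹ * e)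
        have h2 : toK v * (toK v⁻¹ * e) = e := by
          rw [← mul_assoc, show toK v * toK v⁻¹ = toK (v * v⁻¹) from rfl, mul_inv_cancel, toK_one,
            one_mul]
        rw [h2] at h1
        exact h1.symm }
  intro v
  refine Subgroup.pi_mem_of_mulSingle_mem (H := S) v fun i => ?_
  have key : ∀ b : unitary A, Pi.mulSingle i b ∈ S := by
    intro b
    have hb : b ∈ Subgroup.closure
        {u : unitary A | ∃ h ∈ skewAdjoint A, (u : A) = NormedSpace.exp h} := by
      rw [hgen]; trivial
    induction hb using Subgroup.closure_induction with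
    | mem u hu =>
      obtain ⟨h, hh, hu⟩ := hu
      intro e
      let ε : ℝ → unitary (Fin n → A) := fun s =>
        toK (Pi.mulSingle i ⟨_, exp_smul_mem hh s⟩) * e
      have hs : ContDiff ℝ 2 fun s => (ε s : Fin n → A) := by
        refine ContDiff.mul (contDiff_pi.2 fun k => ?_) contDiff_const
        by_cases hk : k = i
        · subst hk
          simpa [toK] using contDiff_exp_smul h
        · simpa [toK, Pi.mulSingle_eq_of_ne hk] using contDiff_const
      have h1 := degI_path hφ (l.map fun q => (q.1, fun _ => q.2))
        (fun q hq => by obtain ⟨r, _, rfl⟩ := List.mem_map.1 hq; exact (contDiff_const : ContDiff ℝ 2 fun _ : ℝ => (r.2 : A))) ε hs 1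
      have f1 : (⟨_, exp_smul_mem hh (1 : ℝ)⟩ : unitary A) = u := Subtype.ext (by
        simp only [one_smul]; exact hu.symm)
      have f0 : (⟨_, exp_smul_mem hh (0 : ℝ)⟩ : unitary A) = 1 := Subtype.ext (by
        simp [NormedSpace.exp_zero])
      have e1 : ε 1 = toK (Pi.mulSingle i u) * e := by
        show toK (Pi.mulSingle i _) * e = _
        rw [f1]
      have e0 : ε 0 = e := by
        show toK (Pi.mulSingle i _) * e = _
        rw [f0, Pi.mulSingle_one, toK_one, one_mul]
      simpa [List.map_map, Function.comp_def, e1, e0] using h1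
    | one => rw [Pi.mulSingle_one]; exact one_mem S
    | mul u w _ _ hu hw => rw [Pi.mulSingle_mul]; exact mul_mem hu hw
    | inv u _ hu => rw [Pi.mulSingle_inv]; exact inv_mem hu
  exact key (v i)

/-- Averaging over the target turns the degree integral into the mean Jacobian. -/
theorem degI_eq_mul (hgen : ExpGenerated A) {φ : (Fin n → A) → ℝ} (hφc : Continuous φ)
    (hφ : Invariant φ) (l : List (Tag n × unitary A)) :
    degI φ l 1 = meanJac l * ∫ y, φ ((y : unitary (Fin n → A)) : Fin n → A) ∂haarK (Fin n → A) := by
  have h1 : ∫ e, degI φ l e ∂haarK (Fin n → A) = degI φ l 1 := by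
    simp [degI_right hgen hφ l]
  rw [← h1]
  unfold degI
  rw [integral_integral_swap]
  · simp only [integral_mul_const]
    rw [meanJac, ← integral_mul_const]
    refine integral_congr_ae (Eventually.of_forall fun x => ?_)
    show (∫ e, φ ((toK (valU x l 1) * e : unitary (Fin n → A)) : Fin n → A) ∂haarK (Fin n → A)) * _ = _
    rw [integral_mul_left_eq_self (fun y : unitary (Fin n → A) => φ (y : Fin n → A)), mul_comm]
  · refine Continuous.integrable_of_hasCompactSupport ?_ (HasCompactSupport.of_compactSpace _)
    exact (hφc.comp (continuous_subtype_val.comp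
      (((continuous_toK.comp (continuous_valU continuous_id l continuous_const)).comp continuous_snd).mul
        continuous_fst))).mul ((continuous_detJ l).comp continuous_snd)

/-- The mean Jacobian does not depend on the coefficients. -/
theorem meanJac_ones (htr : TraceFree (Fin n → A)) (hgen : ExpGenerated A)
    (l : List (Tag n × unitary A)) : meanJac l = meanJac (l.map fun q => (q.1, (1 : unitary A))) := by
  obtain ⟨φ, hφc, -, hpos, hφ⟩ := exists_density (E := Fin n → A) htr one_pos
  have h := degI_ones hgen hφ 1 l []
  simp only [List.nil_append, degI_eq_mul hgen hφc hφ] at h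
  exact mul_right_cancel₀ hpos.ne' h

/-- Nonzero mean Jacobian forces the value `1`. -/
theorem exists_val_eq_one (htr : TraceFree (Fin n → A)) (hgen : ExpGenerated A)
    (l : List (Tag n × unitary A)) (e : unitary (Fin n → A)) (h : meanJac l ≠ 0) :
    ∃ x : unitary (Fin n → A), toK (valU x l 1) * e = 1 := by
  by_contra hno
  push Not at hno
  have hc : Continuous fun x : unitary (Fin n → A) =>
      ‖((toK (valU x l 1) * e : unitary (Fin n → A)) : Fin n → A) - 1‖ :=
    ((continuous_subtype_val.comp
      ((continuous_toK.comp (continuous_valU continuous_id l continuous_const)).mul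
        continuous_const)).sub continuous_const).norm
  obtain ⟨x₀, -, hmin⟩ := isCompact_univ.exists_isMinOn Set.univ_nonempty hc.continuousOn
  have hpos₀ : 0 < ‖((toK (valU x₀ l 1) * e : unitary (Fin n → A)) : Fin n → A) - 1‖ :=
    norm_pos_iff.2 (sub_ne_zero.2 fun h0 => hno x₀ (Subtype.ext h0))
  obtain ⟨φ, hφc, hsupp, hpos, hφ⟩ := exists_density (E := Fin n → A) htr hpos₀
  have h0 : degI φ l e = 0 := by
    refine integral_eq_zero_of_ae (Eventually.of_forall fun x => ?_)
    show φ _ * _ = 0
    rw [hsupp _ (SetLike.coe_mem _) (hmin (Set.mem_univ x)), zero_mul]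
  rw [degI_right hgen hφ l e, degI_eq_mul hgen hφc hφ, mul_eq_zero] at h0
  exact h0.elim h hpos.ne'

end

end Vale.Agent.P174.Degree
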