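import Vale.Agent.P174.Degree.Coeff

/-!
# The mean Jacobian only depends on the exponent sums
-/

namespace Vale.Agent.P174.Degree

open MeasureTheory Matrix Filter Topology

noncomputable section

variable {A : Type} [CStarAlgebra A] [FiniteDimensional ℝ A] {n : ℕ}

/-- Averages over independent conjugators, one for each letter. -/
def tAvg : List (Tag n) → (Matrix (Fin (dimL A n)) (Fin (dimL A n)) ℝ → ℝ) → ℝ
  | [], g => g 0
  | t :: l, g => ∫ u, tAvg l (fun M => g (tm t u + M)) ∂haarK A

/-- Averages over the coefficients. -/
def rAvg (x : unitary (Fin n → A)) :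
    List (Tag n) → (Fin n → unitary A) → (Matrix (Fin (dimL A n)) (Fin (dimL A n)) ℝ → ℝ) → ℝ
  | [], _, g => g 0
  | t :: l, P, g => ∫ a, rAvg x l (stepU t a x P) (fun M => g (tm t (qel t a x P) + M)) ∂haarK A

theorem rAvg_eq (x : unitary (Fin n → A)) : ∀ (l : List (Tag n)) (P : Fin n → unitary A)
    (g : Matrix (Fin (dimL A n)) (Fin (dimL A n)) ℝ → ℝ), rAvg x l P g = tAvg l g
  | [], _, _ => rfl
  | t :: l, P, g => by
    simp only [rAvg, tAvg, rAvg_eq x l]
    set f : unitary A → ℝ := fun u => tAvg l fun M => g (tm t u + M)
    show ∫ a, f (qel t a x P) ∂haarK A = ∫ u, f u ∂haarK A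
    unfold qel
    split_ifs with h
    · exact integral_mul_left_eq_self f _
    · calc ∫ a, f (P t.1 * a * (cmp x t.2.1)⁻¹) ∂haarK A
          = ∫ a, f (a * (cmp x t.2.1)⁻¹) ∂haarK A :=
            integral_mul_left_eq_self (fun u => f (u * (cmp x t.2.1)⁻¹)) _
        _ = ∫ a, f a ∂haarK A := integral_mul_right_eq_self f _

theorem continuous_tAvg : ∀ (l : List (Tag n)) {X : Type} [TopologicalSpace X]
    [FirstCountableTopology X] [LocallyCompactSpace X]
    {G : X → Matrix (Fin (dimL A n)) (Fin (dimL A n)) ℝ → ℝ},
      Continuous (Function.uncurry G) → Continuous fun p => tAvg l (G p)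
  | [], X, _, _, _, G, hG => hG.comp (continuous_id.prodMk continuous_const)
  | t :: l, X, _, _, _, G, hG => by
    have h := continuous_tAvg l (X := X × unitary A) (G := fun q M => G q.1 (tm t q.2 + M))
      (hG.comp ((continuous_fst.comp continuous_fst).prodMk
        (((continuous_tm t).comp (continuous_snd.comp continuous_fst)).add continuous_snd)))
    have h2 := continuous_parametric_integral_of_continuous (μ := haarK A)
      (f := fun (p : X) (u : unitary A) => tAvg l fun M => G p (tm t u + M)) h isCompact_univ
    simpa [tAvg] using h2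

theorem integral_rAvg {c : ℝ} : ∀ (l : List (Tag n)) {P : unitary (Fin n → A) → Fin n → unitary A}
    {G : unitary (Fin n → A) → Matrix (Fin (dimL A n)) (Fin (dimL A n)) ℝ → ℝ},
      Continuous P → Continuous (Function.uncurry G) →
      (∀ L : List (Tag n × unitary A), L.map Prod.fst = l →
        ∫ x, G x (jm x L (P x)) ∂haarK (Fin n → A) = c) →
      ∫ x, rAvg x l (P x) (G x) ∂haarK (Fin n → A) = c
  | [], P, G, _, _, h => by simpa [rAvg, jm_nil] using h [] rfl
  | t :: l, P, G, hP, hG, h => by
    simp only [rAvg]
    rw [integral_integral_swap]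
    · have : ∀ a, ∫ x, rAvg x l (stepU t a x (P x)) (fun M => G x (tm t (qel t a x (P x)) + M))
          ∂haarK (Fin n → A) = c := fun a =>
        integral_rAvg l (continuous_stepU t continuous_const continuous_id hP)
          (hG.comp (continuous_fst.prodMk (((continuous_tm t).comp
            ((continuous_qel t continuous_const continuous_id hP).comp continuous_fst)).add
              continuous_snd)))
          fun L hL => by
            have h1 := h ((t, a) :: L) (by simp [hL])
            simpa [jm_cons] using h1
      simp [this]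
    · refine Continuous.integrable_of_hasCompactSupport ?_ (HasCompactSupport.of_compactSpace _)
      simp only [Function.uncurry_def, rAvg_eq]
      exact continuous_tAvg l (G := fun (q : unitary (Fin n → A) × unitary A) M =>
        G q.1 (tm t (qel t q.2 q.1 (P q.1)) + M))
        (hG.comp ((continuous_fst.comp continuous_fst).prodMk (((continuous_tm t).comp
          ((continuous_qel t continuous_snd continuous_fst (hP.comp continuous_fst)).comp
            continuous_fst)).add continuous_snd)))

variable (A) in
/-- The mean Jacobian of a list of letters. -/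
def cJac (l : List (Tag n)) : ℝ := tAvg (A := A) l Matrix.det

theorem meanJac_eq_cJac (htr : TraceFree (Fin n → A)) (hgen : ExpGenerated A)
    (L : List (Tag n × unitary A)) : meanJac L = cJac A (L.map Prod.fst) := by
  have h := integral_rAvg (c := meanJac L) (L.map Prod.fst) (P := fun _ => 1)
    (G := fun _ => Matrix.det) continuous_const continuous_snd.matrix_det fun L' hL' => by
      show ∫ x, (jm x L' 1).det ∂haarK (Fin n → A) = _
      simp only [det_jm]
      show meanJac L' = meanJac L
      rw [meanJac_ones htr hgen L', meanJac_ones htr hgen L]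
      congr 1
      rw [show (fun q : Tag n × unitary A => (q.1, (1 : unitary A)))
        = (fun t => (t, 1)) ∘ Prod.fst from rfl, ← List.map_map, ← List.map_map, hL']
  simp only [rAvg_eq] at h
  simpa [cJac] using h.symm

theorem tAvg_perm {l l' : List (Tag n)} (h : l.Perm l') :
    ∀ g : Matrix (Fin (dimL A n)) (Fin (dimL A n)) ℝ → ℝ, Continuous g → tAvg l g = tAvg l' g := by
  induction h with
  | nil => intro g _; rfl
  | cons t _ ih =>
    intro g hg
    simp only [tAvg]
    exact integral_congr_ae (Eventually.of_forall fun u => ih _ (hg.comp (continuous_const.add continuous_id)))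
  | swap a b l =>
    intro g hg
    simp only [tAvg]
    rw [integral_integral_swap]
    · simp only [add_left_comm]
    · refine Continuous.integrable_of_hasCompactSupport ?_ (HasCompactSupport.of_compactSpace _)
      exact continuous_tAvg l (G := fun (q : unitary A × unitary A) M => g (tm b q.1 + (tm a q.2 + M)))
        (hg.comp (((continuous_tm b).comp (continuous_fst.comp continuous_fst)).add
          (((continuous_tm a).comp (continuous_snd.comp continuous_fst)).add continuous_snd)))
  | trans _ _ ih ih' => intro g hg; exact (ih g hg).trans (ih' g hg)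

theorem cJac_perm {l l' : List (Tag n)} (h : l.Perm l') : cJac A l = cJac A l' :=
  tAvg_perm h _ continuous_id.matrix_det

theorem cJac_cancel (htr : TraceFree (Fin n → A)) (hgen : ExpGenerated A) (i j : Fin n) (b : Bool)
    (l : List (Tag n)) : cJac A ((i, j, b) :: (i, j, !b) :: l) = cJac A l := by
  have e : ∀ r : List (Tag n), cJac A r = meanJac (r.map fun t => (t, (1 : unitary A))) := fun r => by
    rw [meanJac_eq_cJac htr hgen, List.map_map]
    simp [Function.comp_def]
  rw [e, e]
  refine integral_congr_ae (Eventually.of_forall fun x => ?_)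
  show LinearMap.det (jsum x _ 1) = LinearMap.det (jsum x _ 1)
  congr 1
  simp only [List.map_cons, jsum]
  have hs : stepU (i, j, !b) 1 x (stepU (i, j, b) 1 x 1) = 1 := by
    funext k
    by_cases hk : k = i
    · subst hk
      cases b <;> simp [stepU, pw]
    · simp [stepU, hk]
  have hq : qel (i, j, !b) 1 x (stepU (i, j, b) 1 x 1) = qel (i, j, b) 1 x 1 := by
    cases b <;> simp [qel, stepU, pw]
  rw [hs, hq, ← add_assoc]
  have hz : term (i, j, b) (qel (i, j, b) 1 x 1) + term (i, j, !b) (qel (i, j, b) 1 x 1) = 0 := by
    refine LinearMap.ext fun a => Subtype.ext (funext fun k => ?_)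
    by_cases hk : k = i
    · subst hk
      cases b <;> simp [term, sg]
    · simp [term, hk]
  rw [hz, zero_add]

/-- The exponent sum of a list of letters in an entry. -/
def net (l : List (Tag n)) (i j : Fin n) : ℤ :=
  (l.count (i, j, true) : ℤ) - l.count (i, j, false)

/-- No entry occurs with both signs. -/
def Reduced (l : List (Tag n)) : Prop :=
  ∀ i j, l.count (i, j, true) = 0 ∨ l.count (i, j, false) = 0

theorem exists_reduced (htr : TraceFree (Fin n → A)) (hgen : ExpGenerated A) :
    ∀ (k : ℕ) (l : List (Tag n)), l.length ≤ k →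
      ∃ r, Reduced r ∧ cJac A l = cJac A r ∧ ∀ i j, net l i j = net r i j
  | 0, l, hk => ⟨l, by simp [Reduced, List.length_eq_zero_iff.1 (Nat.le_zero.1 hk)], rfl, fun _ _ => rfl⟩
  | k + 1, l, hk => by
    by_cases hl : Reduced l
    · exact ⟨l, hl, rfl, fun _ _ => rfl⟩
    · simp only [Reduced, not_forall, not_or] at hl
      obtain ⟨i, j, h1, h2⟩ := hl
      have m1 : (i, j, true) ∈ l := List.count_pos_iff.1 (Nat.pos_of_ne_zero h1)
      have m2 : (i, j, false) ∈ l.erase (i, j, true) :=
        (List.mem_erase_of_ne (by simp)).2 (List.count_pos_iff.1 (Nat.pos_of_ne_zero h2))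
      set r := (l.erase (i, j, true)).erase (i, j, false)
      have hp : l.Perm ((i, j, true) :: (i, j, false) :: r) :=
        (List.perm_cons_erase m1).trans ((List.perm_cons_erase m2).cons _)
      have hlen := hp.length_eq
      simp only [List.length_cons] at hlen
      obtain ⟨r', hr1, hr2, hr3⟩ := exists_reduced htr hgen k r (by omega)
      refine ⟨r', hr1, ?_, fun i' j' => ?_⟩
      · have h := cJac_cancel htr hgen i j true r
        rw [Bool.not_true] at h
        rw [cJac_perm hp, h, hr2]
      · rw [← hr3 i' j', net, net, hp.count_eq, hp.count_eq]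
        simp only [List.count_cons, beq_iff_eq, Prod.mk.injEq, and_true]
        by_cases h : i = i' ∧ j = j' <;> simp [h]

/-- The mean Jacobian depends only on the exponent sums. -/
theorem cJac_eq_of_net (htr : TraceFree (Fin n → A)) (hgen : ExpGenerated A) {l l' : List (Tag n)}
    (h : ∀ i j, net l i j = net l' i j) : cJac A l = cJac A l' := by
  obtain ⟨r, hr, hr1, hr2⟩ := exists_reduced (A := A) htr hgen l.length l le_rfl
  obtain ⟨r', hr', hr1', hr2'⟩ := exists_reduced (A := A) htr hgen l'.length l' le_rfl
  rw [hr1, hr1']
  refine cJac_perm (List.perm_iff_count.2 fun t => ?_)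
  obtain ⟨i, j, b⟩ := t
  have e : net r i j = net r' i j := by rw [← hr2, ← hr2', h]
  unfold net at e
  rcases hr i j with h1 | h1 <;> rcases hr' i j with h2 | h2 <;> cases b <;> omega

end

end Vale.Agent.P174.Degree
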