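import Vale.Agent.P174.Degree.Calc

/-!
# Homotopy invariance of the degree integral
-/

namespace Vale.Agent.P174.Degree

open MeasureTheory Matrix Filter Topology

noncomputable section

variable {E : Type} [CStarAlgebra E] {ι : Type} [Fintype ι] [DecidableEq ι]

/-- The Jacobian matrix of `f` along the right invariant fields of `e`. -/
def jac (e : ι → E) (f : ℝ × E → ι → ℝ) (p : ℝ × E) : Matrix ι ι ℝ :=
  Matrix.of fun i α => fderiv ℝ f p (0, e α * p.2) i

theorem contDiff_det {X : Type} [NormedAddCommGroup X] [NormedSpace ℝ X] {M : X → Matrix ι ι ℝ}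
    (h : ∀ i j, ContDiff ℝ 1 fun x => M x i j) : ContDiff ℝ 1 fun x => (M x).det := by
  simp only [Matrix.det_apply']
  exact ContDiff.sum fun σ _ => contDiff_const.mul (contDiff_prod fun i _ => h (σ i) i)

theorem contDiff_cramer {X : Type} [NormedAddCommGroup X] [NormedSpace ℝ X] {M : X → Matrix ι ι ℝ}
    {v : X → ι → ℝ} (h : ∀ i j, ContDiff ℝ 1 fun x => M x i j)
    (hv : ∀ i, ContDiff ℝ 1 fun x => v x i) (α : ι) :
    ContDiff ℝ 1 fun x => (M x).cramer (v x) α := by
  simp only [Matrix.cramer_apply]
  refine contDiff_det fun i j => ?_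
  by_cases hj : j = α
  · subst hj; simpa using hv i
  · simpa [Matrix.updateCol_ne hj] using h i j

theorem hasDerivAt_line {X : Type} [NormedAddCommGroup X] [NormedSpace ℝ X] (p w : X) :
    HasDerivAt (fun t : ℝ => p + t • w) w 0 := by
  simpa using ((hasDerivAt_id (0 : ℝ)).smul_const w).const_add p

theorem hasDerivAt_comp_line {X Y : Type} [NormedAddCommGroup X] [NormedSpace ℝ X]
    [NormedAddCommGroup Y] [NormedSpace ℝ Y] {g : X → Y} {p : X} (hg : DifferentiableAt ℝ g p)
    (w : X) : HasDerivAt (fun t : ℝ => g (p + t • w)) (fderiv ℝ g p w) 0 := by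
  have h0 : p + (0 : ℝ) • w = p := by simp
  exact HasFDerivAt.comp_hasDerivAt_of_eq 0 hg.hasFDerivAt (hasDerivAt_line p w) h0.symm

variable {e : ι → E} {f : ℝ × E → ι → ℝ}

omit [DecidableEq ι] in
theorem contDiff_jac (hf : ContDiff ℝ 2 f) (i j : ι) : ContDiff ℝ 1 fun p => jac e f p i j :=
  contDiff_pi.1 ((hf.fderiv_right (m := 1) (by norm_num)).clm_apply
    (contDiff_const.prodMk (contDiff_const.mul contDiff_snd))) i

omit [DecidableEq ι] in
theorem contDiff_time (hf : ContDiff ℝ 2 f) (i : ι) :
    ContDiff ℝ 1 fun p : ℝ × E => fderiv ℝ f p (1, 0) i :=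
  contDiff_pi.1 ((hf.fderiv_right (m := 1) (by norm_num)).clm_apply contDiff_const) i

omit [DecidableEq ι] in
/-- The derivative of the Jacobian entries along a line. -/
theorem hasDerivAt_jac (hf : ContDiff ℝ 2 f) (p w : ℝ × E) (i j : ι) :
    HasDerivAt (fun t : ℝ => jac e f (p + t • w) i j)
      (fderiv ℝ (fderiv ℝ f) p w (0, e j * p.2) i + fderiv ℝ f p (0, e j * w.2) i) 0 := by
  have h1 := hasDerivAt_comp_line
    (g := fderiv ℝ f) (p := p) (((hf.fderiv_right (m := 1) (by norm_num)).differentiable one_ne_zero) p) w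
  have h2 : HasDerivAt (fun t : ℝ => ((0 : ℝ), e j * (p + t • w).2)) (0, e j * w.2) 0 := by
    refine (hasDerivAt_const _ _).prodMk ?_
    have := (hasDerivAt_line p.2 w.2).const_mul (e j)
    simpa using this
  have h3 := hasDerivAt_pi.1 (h1.clm_apply h2) i
  simpa [jac] using h3

/-- Homotopy invariance. -/
theorem homotopy [FiniteDimensional ℝ E] (he : ∀ α, e α ∈ skewAdjoint E) (C : ι → ι → ι → ℝ)
    (hC : ∀ α β, e β * e α - e α * e β = ∑ γ, C α β γ • e γ)
    (hanti : ∀ α β γ, C α β γ = -C β α γ) (htr : ∀ α, ∑ β, C α β β = 0) (hf : ContDiff ℝ 2 f)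
    {τ : ℝ × E → ℝ} (hτ : ContDiff ℝ 1 τ)
    (hlam : ∀ (s : ℝ) (x : unitary E), ∃ lam : ι → ℝ, ∀ u : ℝ × E,
      fderiv ℝ τ (s, (x : E)) u = ∑ i, lam i * fderiv ℝ f (s, (x : E)) u i) (s : ℝ) :
    ∫ x, τ (s, (x : E)) * (jac e f (s, (x : E))).det ∂haarK E
      = ∫ x, τ (0, (x : E)) * (jac e f (0, (x : E))).det ∂haarK E := by
  set G : ℝ × E → ℝ := fun p => τ p * (jac e f p).det with hGdef
  have hG : ContDiff ℝ 1 G := hτ.mul (contDiff_det (contDiff_jac hf))
  set g : ι → ℝ × E → ℝ := fun α p => τ p * (jac e f p).cramer (fun i => fderiv ℝ f p (1, 0) i) α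
    with hgdef
  have hg : ∀ α, ContDiff ℝ 1 (g α) := fun α =>
    hτ.mul (contDiff_cramer (contDiff_jac hf) (contDiff_time hf) α)
  have key : ∀ (s : ℝ) (x : unitary E),
      fderiv ℝ G (s, (x : E)) (1, 0) = ∑ α, fderiv ℝ (g α) (s, (x : E)) (0, e α * x) := by
    intro s x
    set p : ℝ × E := (s, (x : E)) with hp
    have hp2 : p.2 = (x : E) := rfl
    obtain ⟨lam, hl⟩ := hlam s x
    have hS : ∀ u w : ℝ × E, fderiv ℝ (fderiv ℝ f) p u w = fderiv ℝ (fderiv ℝ f) p w u := fun u w =>
      (hf.contDiffAt.isSymmSndFDerivAt (by simp [minSmoothness_of_isRCLikeNormedField])).eq u w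
    have hT := hasDerivAt_comp_line (g := τ) ((hτ.differentiable one_ne_zero) p)
    set v : ι → ℝ := fun i => fderiv ℝ f p (1, 0) i with hv
    set M := jac e f p with hM
    set v' : ι → ι → ℝ := fun α i => fderiv ℝ (fderiv ℝ f) p (0, e α * x) (1, 0) i with hv'
    set H : ι → ι → ι → ℝ := fun α β i =>
      fderiv ℝ (fderiv ℝ f) p (0, e α * x) (0, e β * x) i + fderiv ℝ f p (0, e β * (e α * x)) i with hH
    have d0 : fderiv ℝ G p (1, 0)
        = fderiv ℝ τ p (1, 0) * M.det + τ p * ∑ α, (M.updateCol α (v' α)).det := by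
      refine (hasDerivAt_comp_line ((hG.differentiable one_ne_zero) p) _).unique ?_
      have hd := hasDerivAt_det (s := (0 : ℝ)) (M := fun t => jac e f (p + t • ((1 : ℝ), (0 : E))))
        (M' := Matrix.of fun i α => v' α i) fun i α => by
          refine (hasDerivAt_jac hf p _ i α).congr_deriv ?_
          simp [hv', hp2, hS ((1 : ℝ), (0 : E)), Prod.mk_zero_zero]
      have := (hT ((1 : ℝ), (0 : E))).mul hd
      simpa [hGdef, hM, zero_smul, Pi.mul_def] using this
    have dg : ∀ α, fderiv ℝ (g α) p (0, e α * x)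
        = fderiv ℝ τ p (0, e α * x) * M.cramer v α
          + τ p * ((M.updateCol α (v' α)).det + ∑ β ∈ Finset.univ.erase α, pair2 M α β v (H α β)) := by
      intro α
      refine (hasDerivAt_comp_line (((hg α).differentiable one_ne_zero) p) _).unique ?_
      set w : ℝ × E := ((0 : ℝ), e α * (x : E)) with hw
      have hd := hasDerivAt_det (s := (0 : ℝ))
        (M := fun t => (jac e f (p + t • w)).updateCol α fun i => fderiv ℝ f (p + t • w) (1, 0) i)
        (M' := Matrix.of fun i β => if β = α then v' α i else H α β i) fun i β => by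
          by_cases hb : β = α
          · subst hb
            have h3 := hasDerivAt_pi.1 ((hasDerivAt_comp_line (g := fderiv ℝ f) (p := p)
              (((hf.fderiv_right (m := 1) (by norm_num)).differentiable one_ne_zero) p) w).clm_apply
              (hasDerivAt_const (0 : ℝ) ((1 : ℝ), (0 : E)))) i
            simpa [hv', hw] using h3
          · have h3 := hasDerivAt_jac (e := e) hf p w i β
            simpa [hH, hw, hp, Matrix.updateCol_ne hb, hb] using h3
      have := (hT w).mul hd
      refine (this.congr_deriv ?_).congr_of_eventuallyEq (Eventually.of_forall fun t => ?_)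
      · simp only [Matrix.of_apply, zero_smul, add_zero, ← hM]
        rw [← Finset.add_sum_erase Finset.univ _ (Finset.mem_univ α), Matrix.cramer_apply]
        simp only [if_pos, Matrix.updateCol_idem]
        congr 1
        congr 1
        congr 1
        refine Finset.sum_congr rfl fun β hβ => ?_
        simp [pair2, Finset.ne_of_mem_erase hβ, hv]
      · simp only [hgdef, Matrix.cramer_apply, Pi.mul_apply]
    have hcomm : ∀ α β i, H α β i - H β α i = ∑ γ, C α β γ * M i γ := by
      intro α β i
      simp only [hH, hM, jac, Matrix.of_apply]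
      rw [hS (0, e α * x), add_sub_add_left_eq_sub]
      have h2 : ((0 : ℝ), e β * (e α * (x : E))) - (0, e α * (e β * (x : E)))
          = ∑ γ, C α β γ • ((0 : ℝ), e γ * (x : E)) := by
        refine Prod.ext ?_ ?_
        · simp [Prod.fst_sum]
        · simp only [Prod.snd_sub, Prod.snd_sum, Prod.smul_snd, ← smul_mul_assoc, ← Finset.sum_mul,
            ← hC, sub_mul, mul_assoc]
      rw [hp2, ← Pi.sub_apply (fderiv ℝ f p _), ← map_sub, h2, map_sum, Finset.sum_apply]
      exact Finset.sum_congr rfl fun γ _ => by rw [map_smul, Pi.smul_apply, smul_eq_mul]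
    have hl' : ∀ α, fderiv ℝ τ p (0, e α * x) = ∑ i, lam i * M i α := fun α => hl _
    have hτ0 : fderiv ℝ τ p (1, 0) = ∑ i, lam i * v i := hl _
    rw [d0]
    simp only [dg, mul_add, Finset.sum_add_distrib]
    rw [← Finset.mul_sum, ← Finset.mul_sum, pair2_sum_zero M v C H hcomm hanti htr, mul_zero,
      add_zero]
    congr 1
    simp only [hl', hτ0, Finset.sum_mul]
    rw [Finset.sum_comm]
    refine Finset.sum_congr rfl fun i _ => ?_
    have hcr := congrFun (Matrix.mulVec_cramer M v) i
    simp only [Matrix.mulVec, dotProduct, Pi.smul_apply, smul_eq_mul] at hcr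
    simp only [mul_assoc, ← Finset.mul_sum, hcr]
    ring
  have hGc : Continuous (fderiv ℝ G) := hG.continuous_fderiv one_ne_zero
  have hpair : Continuous fun q : ℝ × unitary E => ((q.1, (q.2 : E)) : ℝ × E) :=
    continuous_fst.prodMk (continuous_subtype_val.comp continuous_snd)
  have hd : ∀ t, HasDerivAt (fun r => ∫ x, G (r, ((x : unitary E) : E)) ∂haarK E) 0 t := by
    intro t
    have h := hasDerivAt_integralK (G := fun r (x : unitary E) => G (r, (x : E)))
      (G' := fun r (x : unitary E) => fderiv ℝ G (r, (x : E)) (1, 0)) (hG.continuous.comp hpair)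
      ((hGc.comp hpair).clm_apply continuous_const)
      (fun r (x : unitary E) => HasFDerivAt.comp_hasDerivAt (f := fun z : ℝ => (z, (x : E))) r
        ((hG.differentiable one_ne_zero) (r, (x : E))).hasFDerivAt
        ((hasDerivAt_id r).prodMk (hasDerivAt_const r (x : E)))) t
    refine h.congr_deriv ?_
    simp only [key]
    have hint : ∀ α ∈ (Finset.univ : Finset ι), Integrable
        (fun x : unitary E => fderiv ℝ (g α) (t, (x : E)) (0, e α * x)) (haarK E) := fun α _ =>
      integrable_of_continuous ((((hg α).continuous_fderiv one_ne_zero).comp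
        (continuous_const.prodMk continuous_subtype_val)).clm_apply
        (continuous_const.prodMk (continuous_const.mul continuous_subtype_val)))
    rw [integral_finsetSum _ hint]
    refine Finset.sum_eq_zero fun α _ => ?_
    have hga : ContDiff ℝ 1 fun y : E => g α (t, y) := (hg α).comp (contDiff_const.prodMk contDiff_id)
    refine Eq.trans (integral_congr_ae (Eventually.of_forall fun (x : unitary E) => ?_))
      (integral_lie_zero hga (he α))
    have hc : HasFDerivAt (fun y : E => g α (t, y))
      ((fderiv ℝ (g α) (t, (x : E))).comp (ContinuousLinearMap.inr ℝ ℝ E)) (x : E) :=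
      HasFDerivAt.comp (x : E) ((hg α).differentiable one_ne_zero (t, (x : E))).hasFDerivAt
        (hasFDerivAt_prodMk_right t (x : E))
    simp [hc.fderiv]
  exact is_const_of_deriv_eq_zero (fun t => (hd t).differentiableAt) (fun t => (hd t).deriv) s 0

end

end Vale.Agent.P174.Degree
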