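import Vale.Agent.P174.Degree.Tri

/-!
# The two properties needed, for powers of complex matrix algebras
-/

namespace Vale.Agent.P174.Degree

open scoped Matrix.Norms.L2Operator
open Matrix Filter Topology

noncomputable section

/-- The algebra of complex matrices. -/
abbrev Mat (N : ℕ) := Matrix (Fin N) (Fin N) ℂ

theorem expGenerated_mat (N : ℕ) : ExpGenerated (Mat N) := by
  unfold ExpGenerated
  refine eq_top_iff.2 fun u _ => ?_
  have hfin : {θ : ℝ | θ ∈ Set.Ioo (0 : ℝ) 1 ∧
      -Complex.exp (Complex.I * θ) ∈ spectrum ℂ (u : Mat N)}.Finite := by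
    refine Set.Finite.of_finite_image (f := fun θ : ℝ => -Complex.exp (Complex.I * θ))
      ((Matrix.finite_spectrum (u : Mat N)).subset (by rintro _ ⟨θ, hθ, rfl⟩; exact hθ.2)) ?_
    intro a ha b hb h
    have e := Complex.exp_inj_of_neg_pi_lt_of_le_pi ?_ ?_ ?_ ?_ (neg_injective h)
    · simpa [Complex.I_ne_zero] using e
    all_goals simp only [Complex.mul_im, Complex.I_re, Complex.I_im, Complex.ofReal_re,
      Complex.ofReal_im, zero_mul, one_mul, zero_add]
    all_goals linarith [ha.1.1, ha.1.2, hb.1.1, hb.1.2, Real.pi_gt_three]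
  obtain ⟨θ, hθ, hθ'⟩ := ((Set.Ioo_infinite (zero_lt_one : (0 : ℝ) < 1)).sdiff hfin).nonempty
  have hns : -Complex.exp (Complex.I * θ) ∉ spectrum ℂ (u : Mat N) := fun h => hθ' ⟨hθ, h⟩
  set hsc : Mat N := algebraMap ℂ (Mat N) (Complex.I * θ) with hscdef
  have hskew : hsc ∈ skewAdjoint (Mat N) := by
    show star hsc = -hsc
    rw [hscdef, ← algebraMap_star_comm, ← map_neg]
    congr 1
    simp
  have hexp : NormedSpace.exp hsc = algebraMap ℂ (Mat N) (Complex.exp (Complex.I * θ)) := by
    rw [hscdef, Complex.exp_eq_exp_ℂ]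
    have : ContinuousSMul ℚ ℂ := ⟨by
      simp only [Rat.smul_def]
      exact ((Complex.continuous_ofReal.comp Rat.continuous_coe_real).comp continuous_fst).mul
        continuous_snd |>.congr fun q => by simp⟩
    exact (NormedSpace.algebraMap_exp_comm (𝕂 := ℂ) (𝔸 := Mat N) _).symm
  let s : unitary (Mat N) := ⟨NormedSpace.exp hsc,
    NormedSpace.exp_mem_unitary_of_mem_skewAdjoint hskew⟩
  have hv : -(1 : ℂ) ∉ spectrum ℂ ((s⁻¹ * u : unitary (Mat N)) : Mat N) := by
    intro h
    apply hns
    have h1 : Complex.exp (Complex.I * θ) • ((s⁻¹ * u : unitary (Mat N)) : Mat N) = (u : Mat N) := by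
      rw [Algebra.smul_def, ← hexp, show NormedSpace.exp hsc = (s : Mat N) from rfl, ← Submonoid.coe_mul,
        mul_inv_cancel_left]
    rw [← h1]
    refine (spectrum.smul_mem_smul_iff (r := Units.mk0 _ (Complex.exp_ne_zero (Complex.I * θ)))
      (s := -1)).2 h |> fun h2 => ?_
    simpa [Units.smul_def] using h2
  have hlt := (Unitary.norm_sub_one_lt_two_iff (s⁻¹ * u).2).2 hv
  have mem : ∀ z : selfAdjoint (Mat N), selfAdjoint.expUnitary z ∈ Subgroup.closure
      {u : unitary (Mat N) | ∃ h ∈ skewAdjoint (Mat N), (u : Mat N) = NormedSpace.exp h} :=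
    fun z => Subgroup.subset_closure
      ⟨Complex.I • (z : Mat N), z.2.smul_mem_skewAdjoint Complex.conj_I, selfAdjoint.expUnitary_coe z⟩
  have hu : u = s * selfAdjoint.expUnitary (Unitary.argSelfAdjoint (s⁻¹ * u)) := by
    rw [expUnitary_argSelfAdjoint hlt, mul_inv_cancel_left]
  rw [hu]
  exact mul_mem (Subgroup.subset_closure ⟨hsc, hskew, rfl⟩) (mem _)

variable {n N : ℕ}

/-- The trace form on the tangent space. -/
def traceForm : Lie (Fin n → Mat N) →ₗ[ℝ] Module.Dual ℝ (Lie (Fin n → Mat N)) where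
  toFun z :=
    { toFun := fun w => ∑ i, (Matrix.trace ((z : Fin n → Mat N) i * (w : Fin n → Mat N) i)).re
      map_add' := fun a b => by simp [mul_add, Finset.sum_add_distrib]
      map_smul' := fun c a => by simp [Finset.mul_sum] }
  map_add' a b := by
    ext w
    simp [add_mul, Finset.sum_add_distrib]
  map_smul' c a := by
    ext w
    simp [Finset.mul_sum]

theorem traceForm_injective : Function.Injective (traceForm (n := n) (N := N)) := by
  refine (injective_iff_map_eq_zero _).2 fun z hz => Subtype.ext (funext fun i => ?_)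
  have h := LinearMap.congr_fun hz z
  have hst : ∀ i, star ((z : Fin n → Mat N) i) = -(z : Fin n → Mat N) i := fun i =>
    congrFun (star_of_mem_lie z) i
  have key : ∀ i, (Matrix.trace ((z : Fin n → Mat N) i * (z : Fin n → Mat N) i)).re
      = -∑ a, ∑ b, Complex.normSq ((z : Fin n → Mat N) i b a) := by
    intro i
    have hj : ∀ a b, (z : Fin n → Mat N) i a b = -star ((z : Fin n → Mat N) i b a) := fun a b => by
      have := congrFun (congrFun (hst i) a) b
      simp only [Matrix.star_apply, Matrix.neg_apply] at this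
      rw [this, neg_neg]
    simp only [Matrix.trace, Matrix.diag, Matrix.mul_apply, Complex.re_sum, ← Finset.sum_neg_distrib]
    refine Finset.sum_congr rfl fun a _ => Finset.sum_congr rfl fun b _ => ?_
    rw [hj a b]
    simp [Complex.normSq_apply]
  simp only [traceForm, LinearMap.coe_mk, AddHom.coe_mk, key, Finset.sum_neg_distrib,
    LinearMap.zero_apply, neg_eq_zero] at h
  have h1 := (Finset.sum_eq_zero_iff_of_nonneg (fun j _ =>
    Finset.sum_nonneg fun a _ => Finset.sum_nonneg fun b _ => Complex.normSq_nonneg _)).1 h i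
      (Finset.mem_univ i)
  ext a b
  have h2 := (Finset.sum_eq_zero_iff_of_nonneg
    (fun c _ => Finset.sum_nonneg fun e _ => Complex.normSq_nonneg _)).1 h1 b (Finset.mem_univ b)
  have h3 := (Finset.sum_eq_zero_iff_of_nonneg
    (fun c _ => Complex.normSq_nonneg _)).1 h2 a (Finset.mem_univ a)
  simpa using h3

theorem traceFree_mat (n N : ℕ) : TraceFree (Fin n → Mat N) := by
  intro a
  set T := adLie a
  let Φ := LinearMap.linearEquivOfInjective (traceForm (n := n) (N := N)) traceForm_injective
    Subspace.dual_finrank_eq.symm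
  have h : T.dualMap = Φ.conj (-T) := by
    refine LinearMap.ext fun φ => ?_
    obtain ⟨z, rfl⟩ := Φ.surjective φ
    rw [LinearEquiv.conj_apply_apply, LinearEquiv.symm_apply_apply]
    refine LinearMap.ext fun w => ?_
    show traceForm z (T w) = traceForm (-(T z)) w
    simp only [traceForm, LinearMap.coe_mk, AddHom.coe_mk]
    refine Finset.sum_congr rfl fun i _ => ?_
    simp only [T, adLie, LinearMap.coe_mk, AddHom.coe_mk, Submodule.coe_neg, Pi.neg_apply, Pi.sub_apply,
      Pi.mul_apply, mul_sub, neg_sub, sub_mul, Matrix.trace_sub, Complex.sub_re]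
    rw [Matrix.trace_mul_cycle ((z : Fin n → Mat N) i) ((a : Fin n → Mat N) i) _,
      ← mul_assoc, ← mul_assoc]
    simp only [mul_assoc]
    rw [Matrix.trace_mul_comm ((w : Fin n → Mat N) i) ((z : Fin n → Mat N) i * (a : Fin n → Mat N) i)]
    simp only [mul_assoc]
    rw [Matrix.trace_mul_comm ((a : Fin n → Mat N) i) ((z : Fin n → Mat N) i * (w : Fin n → Mat N) i)]
    simp [mul_assoc]
  have h2 := congrArg (LinearMap.trace ℝ (Module.Dual ℝ (Lie (Fin n → Mat N)))) h
  rw [LinearMap.trace_conj', map_neg] at h2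
  have h3 : LinearMap.trace ℝ (Module.Dual ℝ (Lie (Fin n → Mat N))) T.dualMap
      = LinearMap.trace ℝ (Lie (Fin n → Mat N)) T := LinearMap.trace_transpose' T
  linarith

end

end Vale.Agent.P174.Degree
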