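import Vale.Agent.P174.Degree.System

/-!
# Groups inside quotients of products of unitary groups
-/

namespace Vale.Agent.P174.Degree

open scoped Matrix.Norms.L2Operator
open Monoid Matrix Filter Topology
open Vale.Agent.P174.Howie (HowieSolvable LocallyIndicable)

noncomputable section

/-- The group embeds in a quotient group of a product of finite-dimensional unitary groups. -/
def EmbedsInUnitaryQuotient (G : Type) [Group G] : Prop :=
  ∃ (ι : Type) (k : ι → ℕ) (M : Subgroup (∀ i, Matrix.unitaryGroup (Fin (k i)) ℂ)) (_ : M.Normal)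
    (f : G →* ((∀ i, Matrix.unitaryGroup (Fin (k i)) ℂ) ⧸ M)), Function.Injective f

/-- The squared normalized Hilbert-Schmidt distance. -/
def hsSq {k : ℕ} (u v : Matrix.unitaryGroup (Fin k) ℂ) : ℝ :=
  (∑ a, ∑ b, Complex.normSq ((u : Matrix (Fin k) (Fin k) ℂ) a b - (v : Matrix (Fin k) (Fin k) ℂ) a b)) / k

/-- The group embeds in a metric ultraproduct of unitary groups with normalized Hilbert-Schmidt
metrics: some lift to the product is multiplicative and injective modulo sequences tending to `1`. -/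
def Hyperlinear (G : Type) [Group G] : Prop :=
  ∃ (ι : Type) (U : Ultrafilter ι) (k : ι → ℕ) (f : G → ∀ i, Matrix.unitaryGroup (Fin (k i)) ℂ),
    (∀ a b, Tendsto (fun i => hsSq (f (a * b) i) (f a i * f b i)) (U : Filter ι) (𝓝 0)) ∧
      ∀ a b, a ≠ b → ¬ Tendsto (fun i => hsSq (f a i) (f b i)) (U : Filter ι) (𝓝 0)

theorem hsSq_nonneg {k : ℕ} (u v : Matrix.unitaryGroup (Fin k) ℂ) : 0 ≤ hsSq u v :=
  div_nonneg (Finset.sum_nonneg fun _ _ => Finset.sum_nonneg fun _ _ => Complex.normSq_nonneg _)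
    (Nat.cast_nonneg k)

theorem hsSq_eq_trace {k : ℕ} (u v : Matrix.unitaryGroup (Fin k) ℂ) :
    hsSq u v = (Matrix.trace (star ((u : Matrix (Fin k) (Fin k) ℂ) - (v : Matrix (Fin k) (Fin k) ℂ)) *
      ((u : Matrix (Fin k) (Fin k) ℂ) - (v : Matrix (Fin k) (Fin k) ℂ)))).re / k := by
  unfold hsSq
  congr 1
  simp only [Matrix.trace, Matrix.diag, Matrix.mul_apply, Complex.re_sum, Matrix.star_apply,
    Matrix.sub_apply]
  rw [Finset.sum_comm]
  refine Finset.sum_congr rfl fun a _ => Finset.sum_congr rfl fun b _ => ?_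
  simp [Complex.normSq_apply]
  ring

theorem hsSq_mul_left {k : ℕ} (g u v : Matrix.unitaryGroup (Fin k) ℂ) :
    hsSq (g * u) (g * v) = hsSq u v := by
  rw [hsSq_eq_trace, hsSq_eq_trace, Submonoid.coe_mul, Submonoid.coe_mul, ← mul_sub, star_mul]
  simp only [mul_assoc]
  rw [← mul_assoc (star (g : Matrix (Fin k) (Fin k) ℂ)), Unitary.coe_star_mul_self, one_mul]

theorem hsSq_mul_right {k : ℕ} (g u v : Matrix.unitaryGroup (Fin k) ℂ) :
    hsSq (u * g) (v * g) = hsSq u v := by
  rw [hsSq_eq_trace, hsSq_eq_trace, Submonoid.coe_mul, Submonoid.coe_mul, ← sub_mul, star_mul]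
  congr 2
  rw [mul_assoc, Matrix.trace_mul_comm, mul_assoc, mul_assoc, Unitary.mul_star_self_of_mem g.2, mul_one]

theorem hsSq_comm {k : ℕ} (u v : Matrix.unitaryGroup (Fin k) ℂ) : hsSq u v = hsSq v u := by
  unfold hsSq
  congr 1
  refine Finset.sum_congr rfl fun a _ => Finset.sum_congr rfl fun b _ => ?_
  rw [← neg_sub, Complex.normSq_neg]

theorem hsSq_triangle {k : ℕ} (u v w : Matrix.unitaryGroup (Fin k) ℂ) :
    hsSq u w ≤ 2 * hsSq u v + 2 * hsSq v w := by
  unfold hsSq
  rw [mul_div_assoc', mul_div_assoc', ← add_div]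
  refine div_le_div_of_nonneg_right ?_ (Nat.cast_nonneg k)
  simp only [Finset.mul_sum, ← Finset.sum_add_distrib]
  refine Finset.sum_le_sum fun a _ => Finset.sum_le_sum fun b _ => ?_
  simp only [Complex.normSq_apply, Complex.sub_re, Complex.sub_im]
  nlinarith [sq_nonneg (((u : Matrix (Fin k) (Fin k) ℂ) a b).re + ((w : Matrix (Fin k) (Fin k) ℂ) a b).re - 2 * ((v : Matrix (Fin k) (Fin k) ℂ) a b).re),
    sq_nonneg (((u : Matrix (Fin k) (Fin k) ℂ) a b).im + ((w : Matrix (Fin k) (Fin k) ℂ) a b).im - 2 * ((v : Matrix (Fin k) (Fin k) ℂ) a b).im)]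

/-- The sequences tending to `1`. -/
def nullSubgroup {ι : Type} (U : Filter ι) (k : ι → ℕ) :
    Subgroup (∀ i, Matrix.unitaryGroup (Fin (k i)) ℂ) where
  carrier := {p | Tendsto (fun i => hsSq (p i) 1) U (𝓝 0)}
  one_mem' := by simp [hsSq, tendsto_const_nhds]
  mul_mem' := fun {p q} hp hq => by
    refine squeeze_zero (fun i => hsSq_nonneg _ _) (fun i => ?_)
      (by simpa using (hp.const_mul 2).add (hq.const_mul 2))
    calc hsSq (p i * q i) 1 ≤ 2 * hsSq (p i * q i) (1 * q i) + 2 * hsSq (1 * q i) 1 :=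
          hsSq_triangle _ _ _
      _ = 2 * hsSq (p i) 1 + 2 * hsSq (q i) 1 := by rw [hsSq_mul_right, one_mul]
  inv_mem' := fun {p} hp => by
    refine hp.congr fun i => ?_
    show hsSq (p i) 1 = hsSq (p i)⁻¹ 1
    rw [← hsSq_mul_left (p i)⁻¹, inv_mul_cancel, mul_one, hsSq_comm]

instance nullSubgroup_normal {ι : Type} (U : Filter ι) (k : ι → ℕ) : (nullSubgroup U k).Normal :=
  ⟨fun p hp g => hp.congr fun i => by
    show hsSq (p i) 1 = hsSq (g i * p i * (g i)⁻¹) 1
    conv_rhs => rw [← mul_inv_cancel (g i)]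
    rw [hsSq_mul_right]
    conv_rhs => arg 2; rw [← mul_one (g i)]
    rw [hsSq_mul_left]⟩

theorem embeds_of_hyperlinear {G : Type} [Group G] (h : Hyperlinear G) :
    EmbedsInUnitaryQuotient G := by
  obtain ⟨ι, U, k, f, hmul, hinj⟩ := h
  set M := nullSubgroup (U : Filter ι) k
  have he : ∀ x y : ∀ i, Matrix.unitaryGroup (Fin (k i)) ℂ,
      (x : (∀ i, Matrix.unitaryGroup (Fin (k i)) ℂ) ⧸ M) = y ↔
        Tendsto (fun i => hsSq (y i) (x i)) (U : Filter ι) (𝓝 0) := by
    intro x y
    rw [QuotientGroup.eq]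
    show Tendsto (fun i => hsSq ((x i)⁻¹ * y i) 1) _ _ ↔ _
    simp only [← fun i => hsSq_mul_left (x i) ((x i)⁻¹ * y i) 1, mul_inv_cancel_left, mul_one]
  refine ⟨ι, k, M, inferInstance, MonoidHom.mk' (fun a => (f a : _ ⧸ M)) fun a b => ?_, fun a b hab => ?_⟩
  · rw [← QuotientGroup.mk_mul, he]
    exact (hmul a b).congr fun i => hsSq_comm _ _
  · by_contra hne
    exact hinj a b hne (((he _ _).1 hab).congr fun i => hsSq_comm _ _)

/-- Residual finiteness, in the form used here. -/
def ResiduallyFiniteGroup (G : Type) [Group G] : Prop :=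
  ∀ g : G, g ≠ 1 → ∃ (Q : Type) (_ : Group Q) (_ : Finite Q) (φ : G →* Q), φ g ≠ 1

theorem exists_unitary_rep (Q : Type) [Group Q] [Finite Q] :
    ∃ (k : ℕ) (ρ : Q →* Matrix.unitaryGroup (Fin k) ℂ), Function.Injective ρ := by
  obtain ⟨k, ⟨e⟩⟩ := Finite.exists_equiv_fin Q
  let act : Q →* Equiv.Perm (Fin k) :=
    (Equiv.permCongrHom e).toMonoidHom.comp (MulAction.toPermHom Q Q)
  have hact : Function.Injective act :=
    (Equiv.permCongrHom e).injective.comp MulAction.toPerm_injective
  have hu : ∀ σ : Equiv.Perm (Fin k),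
      (σ⁻¹ : Equiv.Perm (Fin k)).permMatrix ℂ ∈ Matrix.unitaryGroup (Fin k) ℂ := by
    intro σ
    rw [Matrix.mem_unitaryGroup_iff, Matrix.star_eq_conjTranspose, Matrix.conjTranspose_permMatrix,
      ← Matrix.permMatrix_mul, inv_mul_cancel, Matrix.permMatrix_one]
  let P : Equiv.Perm (Fin k) →* Matrix.unitaryGroup (Fin k) ℂ :=
    { toFun := fun σ => ⟨_, hu σ⟩
      map_one' := Subtype.ext (by simp)
      map_mul' := fun σ τ => Subtype.ext (by simp [← Matrix.permMatrix_mul]) }
  have hP : Function.Injective P := fun σ τ h => by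
    have h1 : (σ⁻¹ : Equiv.Perm (Fin k)).permMatrix ℂ = (τ⁻¹ : Equiv.Perm (Fin k)).permMatrix ℂ :=
      congrArg Subtype.val h
    refine inv_injective (Equiv.ext fun i => ?_)
    have h2 := congrFun (congrFun h1 i) (σ⁻¹ i)
    simp [Equiv.Perm.permMatrix, PEquiv.toMatrix_apply] at h2
    exact h2.symm
  exact ⟨k, P.comp act, hP.comp hact⟩

theorem embeds_of_residuallyFinite {G : Type} [Group G] (h : ResiduallyFiniteGroup G) :
    EmbedsInUnitaryQuotient G := by
  choose Q hQg hQf φ hφ using fun a : {g : G // g ≠ 1} => h a.1 a.2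
  choose k ρ hρ using fun a => @exists_unitary_rep (Q a) (hQg a) (hQf a)
  refine ⟨{g : G // g ≠ 1}, k, ⊥, inferInstance,
    (QuotientGroup.mk' ⊥).comp (MonoidHom.mk' (fun g a => ρ a (φ a g)) fun x y => ?_), ?_⟩
  · funext a
    simp
  · refine (injective_iff_map_eq_one _).2 fun g hg => by_contra fun hne => ?_
    simp only [MonoidHom.comp_apply, QuotientGroup.mk'_apply, QuotientGroup.eq_one_iff,
      Subgroup.mem_bot] at hg
    exact hφ ⟨g, hne⟩ (hρ ⟨g, hne⟩ (by rw [map_one]; exact congrFun hg ⟨g, hne⟩))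

/-- Nonsingular systems over subgroups of quotients of products of unitary groups are solvable. -/
theorem howieSolvable_of_unitaryQuotient {G : Type} [Group G] (h : EmbedsInUnitaryQuotient G) :
    HowieSolvable G := by
  obtain ⟨ι, k, M, _, f, hf⟩ := h
  intro m n w hw
  set P := ∀ i, Matrix.unitaryGroup (Fin (k i)) ℂ
  set π : P →* P ⧸ M := QuotientGroup.mk' M with hπ
  let F := FreeGroup (Fin n)
  have hsur : Function.Surjective (Coprod.map π (MonoidHom.id F)) := by
    intro z
    induction z using Coprod.induction_on with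
    | inl q =>
      obtain ⟨p, rfl⟩ := QuotientGroup.mk'_surjective M q
      exact ⟨Coprod.inl p, by simp [hπ]⟩
    | inr u => exact ⟨Coprod.inr u, by simp⟩
    | mul a b ha hb =>
      obtain ⟨a', rfl⟩ := ha
      obtain ⟨b', rfl⟩ := hb
      exact ⟨a' * b', by simp⟩
  choose z hz using fun i => hsur (Coprod.map f (MonoidHom.id F) (w i))
  have hexp : ∀ {A B : Type} [Group A] [Group B] (g : A →* B) (c : Coprod A F),
      expVec n (Coprod.map g (MonoidHom.id F) c) = expVec n c := fun g c => by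
    refine DFunLike.congr_fun (f := (expVec n).comp (Coprod.map g (MonoidHom.id F))) ?_ c
    refine Coprod.hom_ext ?_ ?_
    · ext a; simp [expVec]
    · exact FreeGroup.ext_hom _ _ fun j => by simp [expVec, F]
  let zi : ∀ i, Fin m → Coprod (UN (k i)) F := fun i a =>
    Coprod.map (Pi.evalMonoidHom (fun i => Matrix.unitaryGroup (Fin (k i)) ℂ) i) (MonoidHom.id F) (z a)
  have hns : ∀ i, Nonsingular (zi i) := by
    intro i
    have : expMatrix (zi i) = expMatrix w := by
      funext a
      have h1 := congrArg (expVec n) (hz a)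
      rw [hexp, hexp] at h1
      exact congrArg Multiplicative.toAdd ((hexp _ _).trans h1)
    simpa [Nonsingular, this] using hw
  choose x hx using fun i => exists_solution_unitary (zi i) (hns i)
  let X : Fin n → P := fun j i => x i j
  refine ⟨P ⧸ M, inferInstance, f, fun j => π (X j), hf, fun a => ?_⟩
  have e1 : Coprod.lift f (FreeGroup.lift fun j => π (X j))
      = (Coprod.lift (MonoidHom.id _) (FreeGroup.lift fun j => π (X j))).comp
          (Coprod.map f (MonoidHom.id F)) := by
    refine Coprod.hom_ext ?_ ?_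
    · ext g; simp
    · exact FreeGroup.ext_hom _ _ fun j => by simp [F]
  have e2 : (Coprod.lift (MonoidHom.id _) (FreeGroup.lift fun j => π (X j))).comp
      (Coprod.map π (MonoidHom.id F)) = π.comp (Coprod.lift (MonoidHom.id P) (FreeGroup.lift X)) := by
    refine Coprod.hom_ext ?_ ?_
    · exact MonoidHom.ext fun p => by simp
    · exact FreeGroup.ext_hom _ _ fun j => by simp [F]
  rw [e1, MonoidHom.comp_apply, ← hz]
  rw [← MonoidHom.comp_apply, e2, MonoidHom.comp_apply]
  have hval : Coprod.lift (MonoidHom.id P) (FreeGroup.lift X) (z a) = 1 := by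
    funext i
    have e3 : (Pi.evalMonoidHom _ i).comp (Coprod.lift (MonoidHom.id P) (FreeGroup.lift X))
        = (Coprod.lift (MonoidHom.id (UN (k i))) (FreeGroup.lift (x i))).comp
            (Coprod.map (Pi.evalMonoidHom (fun i => Matrix.unitaryGroup (Fin (k i)) ℂ) i)
              (MonoidHom.id F)) := by
      refine Coprod.hom_ext ?_ ?_
      · ext1; simp
      · exact FreeGroup.ext_hom _ _ fun j => by simp [X, F]
    exact (DFunLike.congr_fun e3 (z a)).trans (hx i a)
  rw [hval, map_one]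

end

end Vale.Agent.P174.Degree
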