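import Vale.Agent.P174.Degree.Matrices
import Vale.Agent.P174.Howie.Closure

/-!
# Systems of equations over unitary groups
-/

namespace Vale.Agent.P174.Degree

open scoped Matrix.Norms.L2Operator
open Monoid Matrix

noncomputable section

variable {N n : ℕ}

/-- The group of unitary matrices. -/
abbrev UN (N : ℕ) := unitary (Mat N)

/-- The element of `U * F` written by a list of letters and a final coefficient. -/
def ev : List (Fin n × Bool × UN N) → UN N → Coprod (UN N) (FreeGroup (Fin n))
  | [], e => Coprod.inl e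
  | q :: L, e => Coprod.inl q.2.2 *
      Coprod.inr (if q.2.1 then FreeGroup.of q.1 else (FreeGroup.of q.1)⁻¹) * ev L e

theorem exists_ev (z : Coprod (UN N) (FreeGroup (Fin n))) : ∃ L e, z = ev L e := by
  have hl : ∀ (a : UN N) (L : List (Fin n × Bool × UN N)) (e : UN N),
      ∃ L' e', Coprod.inl a * ev L e = ev L' e' := by
    intro a L e
    cases L with
    | nil => exact ⟨[], a * e, by simp [ev]⟩
    | cons q L => exact ⟨(q.1, q.2.1, a * q.2.2) :: L, e, by simp [ev, mul_assoc]⟩
  have hm : ∀ (L₁ : List (Fin n × Bool × UN N)) (e₁ : UN N) (L : List (Fin n × Bool × UN N))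
      (e : UN N), ∃ L' e', ev L₁ e₁ * ev L e = ev L' e' := by
    intro L₁
    induction L₁ with
    | nil => exact fun e₁ L e => hl e₁ L e
    | cons q L₁ ih =>
      intro e₁ L e
      obtain ⟨L', e', h⟩ := ih e₁ L e
      exact ⟨q :: L', e', by rw [ev, ev, mul_assoc _ (ev L₁ e₁), h]⟩
  induction z using Coprod.induction_on' with
  | one => exact ⟨[], 1, by simp [ev]⟩
  | inl_mul a z ih =>
    obtain ⟨L, e, rfl⟩ := ih
    exact hl a L e
  | inr_mul u z ih =>
    induction u using FreeGroup.induction_on generalizing z with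
    | C1 => simpa using ih
    | of j =>
      obtain ⟨L, e, rfl⟩ := ih
      exact ⟨(j, true, 1) :: L, e, by simp [ev]⟩
    | inv_of j _ =>
      obtain ⟨L, e, rfl⟩ := ih
      exact ⟨(j, false, 1) :: L, e, by simp [ev]⟩
    | mul u v hu hv =>
      have h1 := hu (Coprod.inr v * z) (hv z ih)
      rwa [← mul_assoc, ← map_mul] at h1

/-- The letters of one equation, tagged by its number. -/
def tag (i : Fin n) (L : List (Fin n × Bool × UN N)) : List (Tag n × UN N) :=
  L.map fun q => ((i, q.1, q.2.1), q.2.2)

/-- The product of a list of letters at a point. -/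
def prodW (x : unitary (Fin n → Mat N)) (L : List (Fin n × Bool × UN N)) : UN N :=
  (L.map fun q => q.2.2 * pw q.2.1 (cmp x q.1)).prod

theorem valU_append (x : unitary (Fin n → Mat N)) (l' : List (Tag n × UN N)) :
    ∀ (l : List (Tag n × UN N)) (P : Fin n → UN N), valU x (l ++ l') P = valU x l' (valU x l P)
  | [], _ => rfl
  | q :: l, P => valU_append x l' l _

theorem valU_tag (x : unitary (Fin n → Mat N)) (i : Fin n) :
    ∀ (L : List (Fin n × Bool × UN N)) (P : Fin n → UN N),
      valU x (tag i L) P = Function.update P i (P i * prodW x L)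
  | [], P => by simp [tag, valU, prodW]
  | q :: L, P => by
    show valU x (tag i L) (stepU (i, q.1, q.2.1) q.2.2 x P) = _
    rw [valU_tag x i L]
    simp [stepU, prodW, mul_assoc]

theorem valU_flatMap (x : unitary (Fin n → Mat N)) (L : Fin n → List (Fin n × Bool × UN N)) :
    ∀ (r : List (Fin n)), r.Nodup → ∀ (P : Fin n → UN N) (k : Fin n),
      valU x (r.flatMap fun i => tag i (L i)) P k = if k ∈ r then P k * prodW x (L k) else P k
  | [], _, P, k => by simp [valU]
  | i :: r, hr, P, k => by
    rw [List.flatMap_cons, valU_append, valU_tag, valU_flatMap x L r (List.nodup_cons.1 hr).2]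
    by_cases hk : k = i
    · subst hk
      simp [(List.nodup_cons.1 hr).1]
    · simp [hk]

theorem lift_ev (x : unitary (Fin n → Mat N)) : ∀ (L : List (Fin n × Bool × UN N)) (e : UN N),
    Coprod.lift (MonoidHom.id (UN N)) (FreeGroup.lift (cmp x)) (ev L e) = prodW x L * e
  | [], e => by simp [ev, prodW]
  | q :: L, e => by
    simp only [ev, map_mul, lift_ev x L, Coprod.lift_apply_inl, Coprod.lift_apply_inr,
      MonoidHom.id_apply, prodW, List.map_cons, List.prod_cons]
    rcases q with ⟨j, b, a⟩
    cases b <;> simp [pw, mul_assoc]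

theorem net_append (l l' : List (Tag n)) (i j : Fin n) :
    net (l ++ l') i j = net l i j + net l' i j := by
  simp [net, List.count_append]
  ring

theorem net_tag (i : Fin n) (e : UN N) : ∀ (L : List (Fin n × Bool × UN N)) (i' j : Fin n),
    net ((tag i L).map Prod.fst) i' j
      = if i = i' then Multiplicative.toAdd (expVec n (ev L e)) j else 0
  | [], i', j => by simp [tag, net, ev, expVec]
  | q :: L, i', j => by
    have := net_tag i e L i' j
    rw [show (tag i (q :: L)).map Prod.fst = [(i, q.1, q.2.1)] ++ (tag i L).map Prod.fst from rfl,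
      net_append, this]
    rcases q with ⟨j', b, a⟩
    by_cases hi : i = i'
    · subst hi
      by_cases hj : j' = j
      · subst hj
        cases b <;> simp [net, ev, expVec]
      · cases b <;> simp [net, ev, expVec, hj, Ne.symm hj]
    · simp [net, hi]

theorem net_flatMap (L : Fin n → List (Fin n × Bool × UN N)) (e : Fin n → UN N) :
    ∀ (r : List (Fin n)), r.Nodup → ∀ i j : Fin n,
      net ((r.flatMap fun i => tag i (L i)).map Prod.fst) i j
        = if i ∈ r then Multiplicative.toAdd (expVec n (ev (L i) (e i))) j else 0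
  | [], _, i, j => by simp [net]
  | i' :: r, hr, i, j => by
    rw [List.flatMap_cons, List.map_append, net_append, net_tag i' (e i'),
      net_flatMap L e r (List.nodup_cons.1 hr).2]
    by_cases hi : i' = i
    · subst hi
      simp [(List.nodup_cons.1 hr).1]
    · simp [hi, Ne.symm hi]

/-- Solvability of all square systems with a given exponent matrix. -/
def SolvesMat (N : ℕ) (M : Matrix (Fin n) (Fin n) ℤ) : Prop :=
  M.det ≠ 0 → ∀ w : Fin n → Coprod (UN N) (FreeGroup (Fin n)), expMatrix w = M →
    ∃ x : Fin n → UN N, ∀ i, Coprod.lift (MonoidHom.id (UN N)) (FreeGroup.lift x) (w i) = 1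

theorem solves_posTri (M : Matrix (Fin n) (Fin n) ℤ) (hM : ∀ i j, j < i → M i j = 0)
    (hd : ∀ i, 0 < M i i) (w : Fin n → Coprod (UN N) (FreeGroup (Fin n))) (hw : expMatrix w = M) :
    ∃ x : Fin n → UN N, ∀ i, Coprod.lift (MonoidHom.id (UN N)) (FreeGroup.lift x) (w i) = 1 := by
  choose L e hLe using fun i => exists_ev (w i)
  set l := (List.finRange n).flatMap fun i => tag i (L i)
  have hnet : ∀ i j, net (l.map Prod.fst) i j = M i j := fun i j => by
    rw [net_flatMap L e _ (List.nodup_finRange n), if_pos (List.mem_finRange i), ← hLe, ← hw]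
    rfl
  have htr := traceFree_mat n N
  have hgen := expGenerated_mat N
  have hne : meanJac l ≠ 0 := by
    rw [meanJac_eq_cJac htr hgen]
    exact (cJac_pos htr hgen M hM hd hnet).ne'
  obtain ⟨x, hx⟩ := exists_val_eq_one htr hgen l (toK e) hne
  refine ⟨cmp x, fun i => ?_⟩
  rw [hLe, lift_ev]
  have := congrFun (congrArg cmp hx) i
  rw [show toK (valU x l 1) * toK e = toK (valU x l 1 * e) from rfl, cmp_toK] at this
  rw [Pi.mul_apply, valU_flatMap x L _ (List.nodup_finRange n), if_pos (List.mem_finRange i),
    Pi.one_apply, one_mul] at this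
  rw [this]
  rfl

theorem expMatrix_row_op (w : Fin n → Coprod (UN N) (FreeGroup (Fin n))) (i k : Fin n) (c : ℤ) :
    expMatrix (Function.update w i (w i * w k ^ c))
      = (expMatrix w).updateRow i (expMatrix w i + c • expMatrix w k) := by
  funext a b
  by_cases ha : a = i
  · subst ha
    simp [expMatrix, map_zpow]
  · simp [expMatrix, ha]

theorem solves_tri (M : Matrix (Fin n) (Fin n) ℤ) (hM : ∀ i j, j < i → M i j = 0) :
    SolvesMat N M := by
  intro hdet w hw
  rw [Matrix.det_of_isUpperTriangular hM, Finset.prod_ne_zero_iff] at hdet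
  let s : Fin n → ℤ := fun i => if 0 < M i i then 1 else -1
  obtain ⟨x, hx⟩ := solves_posTri (Matrix.of fun i j => s i * M i j)
    (fun i j h => by simp [hM i j h]) (fun i => by
      have := hdet i (Finset.mem_univ i)
      simp only [Matrix.of_apply, s]
      split_ifs <;> omega) (fun i => w i ^ s i) (by
      funext i j
      simp [expMatrix, map_zpow, ← hw])
  refine ⟨x, fun i => ?_⟩
  have := hx i
  simp only [map_zpow, s] at this
  split_ifs at this with h
  · simpa using this
  · simpa using this

/-- Row reduction to upper triangular form. -/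
theorem tri_induction {P : Matrix (Fin n) (Fin n) ℤ → Prop}
    (hu : ∀ M : Matrix (Fin n) (Fin n) ℤ, (∀ i j, j < i → M i j = 0) → P M)
    (hs : ∀ (M : Matrix (Fin n) (Fin n) ℤ) (i k : Fin n), P (M.submatrix (Equiv.swap i k) id) → P M)
    (ha : ∀ (M : Matrix (Fin n) (Fin n) ℤ) (i k : Fin n) (c : ℤ), i ≠ k →
      P (M.updateRow i (M i + c • M k)) → P M) :
    ∀ M, P M := by
  suffices key : ∀ (d c : ℕ), c + d = n → ∀ M : Matrix (Fin n) (Fin n) ℤ,
      (∀ i j, j < i → j.1 < c → M i j = 0) → P M from
    fun M => key n 0 (zero_add n) M fun i j _ h => absurd h (Nat.not_lt_zero _)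
  intro d
  induction d with
  | zero => exact fun c hc M hM => hu M fun i j h => hM i j h (by omega)
  | succ d ih =>
    intro c hc
    let cc : Fin n := ⟨c, by omega⟩
    suffices inner : ∀ (k : ℕ) (M : Matrix (Fin n) (Fin n) ℤ), (∀ i j, j < i → j.1 < c → M i j = 0) →
        (∑ i ∈ Finset.univ.filter (fun i : Fin n => c ≤ i.1), (M i cc).natAbs) = k → P M from
      fun M hM => inner _ M hM rfl
    intro k
    induction k using Nat.strong_induction_on with
    | _ k ihk =>
      intro M hM hk
      by_cases h2 : ∃ r s : Fin n, r ≠ s ∧ c ≤ r.1 ∧ c ≤ s.1 ∧ M r cc ≠ 0 ∧ M s cc ≠ 0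
          ∧ (M r cc).natAbs ≤ (M s cc).natAbs
      · obtain ⟨r, s, hrs, hr, hsc, hr0, hs0, hle⟩ := h2
        let t : ℤ := -((M r cc).sign * (M s cc).sign)
        refine ha M s r t hrs.symm (ihk _ ?_ _ ?_ rfl)
        · rw [← hk]
          refine Finset.sum_lt_sum (fun i _ => ?_) ⟨s, Finset.mem_filter.2 ⟨Finset.mem_univ _, hsc⟩, ?_⟩
          · by_cases his : i = s
            · subst his
              simp only [Matrix.updateRow_self, Pi.add_apply, Pi.smul_apply, smul_eq_mul, t]
              rcases lt_or_gt_of_ne hr0 with a | a <;> rcases lt_or_gt_of_ne hs0 with b | b <;>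
                simp [Int.sign_eq_one_of_pos, Int.sign_eq_neg_one_of_neg, a, b] <;> omega
            · simp [Matrix.updateRow_ne his]
          · simp only [Matrix.updateRow_self, Pi.add_apply, Pi.smul_apply, smul_eq_mul, t]
            rcases lt_or_gt_of_ne hr0 with a | a <;> rcases lt_or_gt_of_ne hs0 with b | b <;>
              simp [Int.sign_eq_one_of_pos, Int.sign_eq_neg_one_of_neg, a, b] <;> omega
        · intro i j hji hjc
          by_cases his : i = s
          · subst his
            simp only [Matrix.updateRow_self, Pi.add_apply, Pi.smul_apply, hM i j hji hjc,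
              hM r j (Fin.lt_def.2 (by omega)) hjc, smul_zero, add_zero]
          · rw [Matrix.updateRow_ne his]
            exact hM i j hji hjc
      · have huniq : ∀ r s : Fin n, c ≤ r.1 → c ≤ s.1 → M r cc ≠ 0 → M s cc ≠ 0 → r = s := by
          intro r s hr hs1 hr0 hs0
          by_contra hne
          rcases le_total (M r cc).natAbs (M s cc).natAbs with h | h
          · exact h2 ⟨r, s, hne, hr, hs1, hr0, hs0, h⟩
          · exact h2 ⟨s, r, Ne.symm hne, hs1, hr, hs0, hr0, h⟩
        obtain ⟨r, hr, hr'⟩ : ∃ r : Fin n, c ≤ r.1 ∧ ∀ i : Fin n, c ≤ i.1 → i ≠ r → M i cc = 0 := by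
          by_cases hex : ∃ r : Fin n, c ≤ r.1 ∧ M r cc ≠ 0
          · obtain ⟨r, hr, hr0⟩ := hex
            exact ⟨r, hr, fun i hi hne => by_contra fun h => hne (huniq i r hi hr h hr0)⟩
          · exact ⟨cc, le_refl c, fun i hi _ => by_contra fun h => hex ⟨i, hi, h⟩⟩
        refine hs M cc r (ih (c + 1) (by omega) _ fun i j hji hjc => ?_)
        simp only [Matrix.submatrix_apply, id_eq]
        have hji' : j.1 < i.1 := hji
        rcases eq_or_ne i cc with rfl | hic
        · rw [Equiv.swap_apply_left]
          exact hM r j (Fin.lt_def.2 (lt_of_lt_of_le hji' hr)) hji'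
        rcases eq_or_ne i r with rfl | hir
        · rw [Equiv.swap_apply_right]
          have hci : c < i.1 := lt_of_le_of_ne hr fun h => hic (Fin.ext h.symm)
          rcases Nat.lt_or_eq_of_le (Nat.le_of_lt_succ hjc) with h | h
          · exact hM cc j (Fin.lt_def.2 h) h
          · obtain rfl : j = cc := Fin.ext h
            exact hr' cc (le_refl c) hic.symm
        rw [Equiv.swap_apply_of_ne_of_ne hic hir]
        rcases Nat.lt_or_eq_of_le (Nat.le_of_lt_succ hjc) with h | h
        · exact hM i j hji h
        · obtain rfl : j = cc := Fin.ext h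
          exact hr' i (le_of_lt hji') hir

theorem solves_all (M : Matrix (Fin n) (Fin n) ℤ) : SolvesMat N M := by
  refine tri_induction (P := SolvesMat N) (fun M hM => solves_tri M hM) (fun M i k h => ?_)
    (fun M i k c hik h => ?_) M
  · intro hdet w hw
    obtain ⟨x, hx⟩ := h (by rw [Matrix.det_permute]; simpa using hdet) (w ∘ Equiv.swap i k) (by
      rw [← hw]; rfl)
    exact ⟨x, fun a => by simpa using hx (Equiv.swap i k a)⟩
  · intro hdet w hw
    obtain ⟨x, hx⟩ := h (by rwa [Matrix.det_updateRow_add_smul_self M hik])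
      (Function.update w i (w i * w k ^ c)) (by rw [expMatrix_row_op, hw])
    refine ⟨x, fun a => ?_⟩
    have hk := hx k
    rw [Function.update_of_ne hik.symm] at hk
    by_cases hai : a = i
    · subst hai
      have := hx a
      rw [Function.update_self, map_mul, map_zpow, hk, _root_.one_zpow, mul_one] at this
      exact this
    · simpa [Function.update_of_ne hai] using hx a

/-- Every nonsingular system over a unitary group has a solution in the same group. -/
theorem exists_solution_unitary {m : ℕ} (w : Fin m → Coprod (UN N) (FreeGroup (Fin n)))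
    (hw : Nonsingular w) :
    ∃ x : Fin n → UN N, ∀ i, Coprod.lift (MonoidHom.id (UN N)) (FreeGroup.lift x) (w i) = 1 := by
  classical
  set R : Fin m → (Fin n → ℚ) := ((expMatrix w).map (Int.cast : ℤ → ℚ)).row with hR
  have hli : LinearIndependent ℚ R := Howie.linearIndependent_of_nonsingular hw
  set E : Fin n → (Fin n → ℚ) := fun j => Pi.single j 1
  obtain ⟨b, hbsub, hRb, hbspan, hbli⟩ := exists_linearIndepOn_id_extension (K := ℚ)
    (s := Set.range R) (t := Set.range R ∪ Set.range E) hli.linearIndepOn_id Set.subset_union_left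
  have hspan : ⊤ ≤ Submodule.span ℚ (Set.range ((↑) : b → (Fin n → ℚ))) := by
    rw [Subtype.range_coe]
    intro v _
    rw [pi_eq_sum_univ' v]
    exact Submodule.sum_mem _ fun j _ => Submodule.smul_mem _ _ (hbspan (Or.inr ⟨j, rfl⟩))
  let B : Module.Basis b ℚ (Fin n → ℚ) := Module.Basis.mk hbli hspan
  have : Fintype b := FiniteDimensional.fintypeBasisIndex B
  have hcard : Fintype.card b = n := by
    rw [← Module.finrank_eq_card_basis B, Module.finrank_fin_fun]
  let σ : Fin n ≃ b := (Fintype.equivFinOfCardEq hcard).symm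
  let z : Fin n → Coprod (UN N) (FreeGroup (Fin n)) := fun i =>
    if h : ((σ i : b) : Fin n → ℚ) ∈ Set.range R then w h.choose
    else if h' : ((σ i : b) : Fin n → ℚ) ∈ Set.range E then Coprod.inr (FreeGroup.of h'.choose)
    else 1
  have hz : ∀ i j, ((expMatrix z i j : ℤ) : ℚ) = ((σ i : b) : Fin n → ℚ) j := by
    intro i j
    show ((Multiplicative.toAdd (expVec n (z i)) j : ℤ) : ℚ) = _
    simp only [z]
    split_ifs with h h'
    · exact congrFun h.choose_spec j
    · conv_rhs => rw [← h'.choose_spec]
      simp [expVec, E, Pi.single_apply, apply_ite (Int.cast : ℤ → ℚ)]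
    · exact absurd (hbsub (σ i).2) (by simp only [Set.mem_union, not_or]; exact ⟨h, h'⟩)
  have hdet : (expMatrix z).det ≠ 0 := by
    intro h0
    have h1 : LinearIndependent ℚ ((expMatrix z).map (Int.cast : ℤ → ℚ)).row := by
      have : ((expMatrix z).map (Int.cast : ℤ → ℚ)).row = ((↑) : b → (Fin n → ℚ)) ∘ σ :=
        funext fun i => funext fun j => hz i j
      rw [this]
      exact hbli.comp σ σ.injective
    rw [Matrix.linearIndependent_rows_iff_isUnit, Matrix.isUnit_iff_isUnit_det, isUnit_iff_ne_zero]
      at h1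
    apply h1
    have h2 := (Int.castRingHom ℚ).map_det (expMatrix z)
    rw [h0, map_zero] at h2
    exact h2.symm
  obtain ⟨x, hx⟩ := solves_all (expMatrix z) hdet z rfl
  refine ⟨x, fun i => ?_⟩
  have hmem : R i ∈ b := hRb ⟨i, rfl⟩
  obtain ⟨a, ha⟩ := σ.surjective ⟨R i, hmem⟩
  have hval : ((σ a : b) : Fin n → ℚ) = R i := by rw [ha]
  have h : ((σ a : b) : Fin n → ℚ) ∈ Set.range R := ⟨i, hval.symm⟩
  have hzi : z a = w i := by
    simp only [z, dif_pos h]
    exact congrArg w (hli.injective (h.choose_spec.trans hval))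
  rw [← hzi]
  exact hx a

end

end Vale.Agent.P174.Degree
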