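import Vale.Agent.P174.Degree.Count

/-!
# Triangular exponent matrices have positive mean Jacobian
-/

namespace Vale.Agent.P174.Degree

open MeasureTheory Matrix Filter Topology

noncomputable section

variable {A : Type} [CStarAlgebra A] {n : ℕ}

/-- The diagonal part of a triangular Jacobian, damped by `s`. -/
def dg (d : Fin n → ℕ) (x : unitary (Fin n → A)) (s : ℝ) :
    Lie (Fin n → A) →ₗ[ℝ] Lie (Fin n → A) where
  toFun a := ⟨fun k => ∑ r ∈ Finset.range (d k), s ^ r •
      (((cmp x k ^ r : unitary A) : A) * (a : Fin n → A) k * star ((cmp x k ^ r : unitary A) : A)), by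
    show star _ = -(_ : Fin n → A)
    funext k
    have ha : star ((a : Fin n → A) k) = -(a : Fin n → A) k := congrFun (star_of_mem_lie a) k
    simp only [Pi.star_apply, Pi.neg_apply, star_sum, star_smul, star_trivial, star_mul, star_star,
      ha, ← Finset.sum_neg_distrib]
    simp [mul_assoc]⟩
  map_add' a b := by
    ext1
    funext k
    simp [mul_add, add_mul, Finset.sum_add_distrib]
  map_smul' c a := by
    ext1
    funext k
    simp [Finset.smul_sum, smul_comm c]

/-- A map that only looks to the right. -/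
def StrictUpper (O : Lie (Fin n → A) →ₗ[ℝ] Lie (Fin n → A)) : Prop :=
  ∀ (k : Fin n) (a : Lie (Fin n → A)), (∀ j, k < j → (a : Fin n → A) j = 0) → (O a : Fin n → A) k = 0

theorem jsum_strictUpper (x : unitary (Fin n → A)) : ∀ (l : List (Tag n × unitary A)),
    (∀ q ∈ l, q.1.1 < q.1.2.1) → ∀ P, StrictUpper (jsum x l P)
  | [], _, _ => fun _ _ _ => by simp [jsum]
  | q :: l, hl, P => fun k a ha => by
    simp only [jsum, LinearMap.add_apply, Submodule.coe_add, Pi.add_apply,
      jsum_strictUpper x l (fun r hr => hl r (List.mem_cons_of_mem _ hr)) _ k a ha, add_zero]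
    by_cases hk : k = q.1.1
    · simp [term, hk, ha _ (hk ▸ hl q List.mem_cons_self)]
    · simp [term, hk]

/-- The contribution of diagonal letters followed by anything. -/
theorem jsum_diag (x : unitary (Fin n → A)) (suf : List (Tag n × unitary A)) :
    ∀ (pre : List (Tag n × unitary A)),
      (∀ q ∈ pre, q.1.2.1 = q.1.1 ∧ q.1.2.2 = true ∧ q.2 = 1) → ∀ P : Fin n → unitary A,
      ∃ P' : Fin n → unitary A, ∀ (a : Lie (Fin n → A)) (k : Fin n),
        (jsum x (pre ++ suf) P a : Fin n → A) k
          = (∑ r ∈ Finset.range ((pre.map Prod.fst).count (k, k, true)),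
              ((P k * cmp x k ^ r : unitary A) : A) * (a : Fin n → A) k
                * star ((P k * cmp x k ^ r : unitary A) : A))
            + (jsum x suf P' a : Fin n → A) k
  | [], _, P => ⟨P, fun a k => by simp⟩
  | q :: pre, h, P => by
    obtain ⟨⟨i, j, b⟩, c⟩ := q
    obtain ⟨hj, hb, hc⟩ : j = i ∧ b = true ∧ c = 1 := h _ List.mem_cons_self
    subst j b c
    obtain ⟨P', hP⟩ := jsum_diag x suf pre (fun r hr => h r (List.mem_cons_of_mem _ hr))
      (stepU (i, i, true) 1 x P)
    refine ⟨P', fun a k => ?_⟩
    simp only [List.cons_append, jsum, LinearMap.add_apply, Submodule.coe_add, Pi.add_apply, hP,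
      List.map_cons, List.count_cons]
    by_cases hk : k = i
    · subst hk
      simp only [beq_self_eq_true, if_true, Finset.sum_range_succ']
      simp [term, qel, stepU, pw, sg, pow_succ', mul_assoc]
      abel
    · simp [term, qel, stepU, pw, hk, Ne.symm hk]

variable [FiniteDimensional ℝ A]

/-- A triangular Jacobian has nonnegative determinant, positive at the neutral point. -/
theorem det_tri {d : Fin n → ℕ} (hd : ∀ k, 1 ≤ d k) (x : unitary (Fin n → A))
    {O : Lie (Fin n → A) →ₗ[ℝ] Lie (Fin n → A)} (hO : StrictUpper O) :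
    0 ≤ LinearMap.det (dg d x 1 + O) ∧ (x = 1 → 0 < LinearMap.det (dg d x 1 + O)) := by
  set f : ℝ → ℝ := fun s => LinearMap.det (dg d x s + s • O) with hf
  have inj : ∀ s : ℝ, (∀ k, ∀ y : A, (∑ r ∈ Finset.range (d k),
      s ^ r • (((cmp x k ^ r : unitary A) : A) * y * star ((cmp x k ^ r : unitary A) : A))) = 0 → y = 0) →
      f s ≠ 0 := by
    intro s hs h0
    obtain ⟨a, ha, ha0⟩ := (Submodule.ne_bot_iff _).1
      (LinearMap.det_eq_zero_iff_ker_ne_bot.1 h0)
    refine ha0 (Subtype.ext (funext ?_))
    have hz : ∀ k, (∀ j, k < j → (a : Fin n → A) j = 0) → (a : Fin n → A) k = 0 := by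
      intro k hk
      have e : ((dg d x s + s • O) a : Fin n → A) k = 0 := by
        rw [LinearMap.mem_ker.1 ha]; rfl
      simp only [LinearMap.add_apply, LinearMap.smul_apply, Submodule.coe_add, Submodule.coe_smul,
        Pi.add_apply, Pi.smul_apply, hO k a hk, smul_zero, add_zero] at e
      exact hs k _ e
    intro k
    induction hm : n - k.1 using Nat.strong_induction_on generalizing k with
    | _ m ih =>
      exact hz k fun j hj => ih (n - j.1) (by omega) j rfl
  have hlt : ∀ s ∈ Set.Ico (0 : ℝ) 1, f s ≠ 0 := by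
    intro s hs
    refine inj s fun k y hy => ?_
    set u := cmp x k
    set g : ℕ → A := fun r => s ^ r • (((u ^ r : unitary A) : A) * y * star ((u ^ r : unitary A) : A))
    have h1 : (u : A) * (s • ∑ r ∈ Finset.range (d k), g r) * star (u : A)
        = ∑ r ∈ Finset.range (d k), g (r + 1) := by
      simp only [Finset.smul_sum, Finset.mul_sum, Finset.sum_mul]
      refine Finset.sum_congr rfl fun r _ => ?_
      simp [g, pow_succ', smul_smul, mul_assoc, (Commute.pow_self (star (u : A)) r).eq]
    rw [show ∑ r ∈ Finset.range (d k), g r = 0 from hy, smul_zero, mul_zero, zero_mul] at h1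
    have h2 : g (d k) = g 0 := by
      have := Finset.sum_range_succ g (d k)
      rw [Finset.sum_range_succ' g (d k), ← h1, show ∑ r ∈ Finset.range (d k), g r = 0 from hy,
        zero_add, zero_add] at this
      exact this.symm
    have h3 : ‖g (d k)‖ = s ^ d k * ‖y‖ := by
      simp only [g, norm_smul, norm_pow, Real.norm_eq_abs, abs_of_nonneg hs.1]
      rw [← Unitary.coe_star, CStarRing.norm_mul_coe_unitary, CStarRing.norm_coe_unitary_mul]
    have h4 : ‖g 0‖ = ‖y‖ := by simp [g]
    rw [h2, h4] at h3
    have : s ^ d k < 1 := pow_lt_one₀ hs.1 hs.2 (by have := hd k; omega)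
    exact norm_eq_zero.1 (by nlinarith [norm_nonneg y])
  have h0 : f 0 = 1 := by
    have : dg d x 0 = LinearMap.id := by
      refine LinearMap.ext fun a => Subtype.ext (funext fun k => ?_)
      show ∑ r ∈ Finset.range (d k), _ = _
      rw [Finset.sum_eq_single 0 (fun r _ hr => by simp [zero_pow hr]) (by simp; have := hd k; omega)]
      simp
    simp [hf, this]
  have hc : Continuous f := by
    simp only [hf, det_eq_matrix]
    refine Continuous.matrix_det (continuous_matrix fun i α => ?_)
    refine (continuous_apply i).comp ((LinearMap.continuous_of_finiteDimensional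
      (Module.finBasis ℝ (Lie (Fin n → A))).equivFun.toLinearMap).comp ?_)
    simp only [LinearMap.add_apply, LinearMap.smul_apply]
    refine Continuous.add ?_ (continuous_id.smul continuous_const)
    refine Continuous.subtype_mk (continuous_pi fun k => ?_) _
    exact continuous_finsetSum _ fun r _ => (continuous_pow r).smul continuous_const
  have hpos : ∀ s ∈ Set.Ico (0 : ℝ) 1, 0 < f s := by
    intro s hs
    by_contra hn
    obtain ⟨z, hz, hz0⟩ := intermediate_value_Icc' hs.1 hc.continuousOn
      (show (0 : ℝ) ∈ Set.Icc (f s) (f 0) from ⟨le_of_not_gt hn, by rw [h0]; norm_num⟩)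
    exact hlt z ⟨hz.1, hz.2.trans_lt hs.2⟩ hz0
  have hnn : 0 ≤ f 1 := by
    have hcl : IsClosed {s : ℝ | 0 ≤ f s} := isClosed_le continuous_const hc
    have hsub : Set.Icc (0 : ℝ) 1 ⊆ {s : ℝ | 0 ≤ f s} := by
      rw [← closure_Ico (zero_ne_one : (0 : ℝ) ≠ 1)]
      exact closure_minimal (fun s hs => (hpos s hs).le) hcl
    exact hsub (by norm_num)
  have e1 : f 1 = LinearMap.det (dg d x 1 + O) := by simp [hf]
  refine ⟨e1 ▸ hnn, fun hx => e1 ▸ lt_of_le_of_ne hnn (Ne.symm (inj 1 fun k y hy => ?_))⟩
  subst hx
  have hc1 : cmp (1 : unitary (Fin n → A)) k = 1 := rfl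
  simp only [hc1, one_pow, one_smul, OneMemClass.coe_one, star_one, mul_one, one_mul,
    Finset.sum_const, Finset.card_range, ← Nat.cast_smul_eq_nsmul ℝ] at hy
  exact (smul_eq_zero.1 hy).resolve_left (by have := hd k; exact_mod_cast (by omega : d k ≠ 0))

/-- Triangular exponent matrices. -/
theorem cJac_pos (htr : TraceFree (Fin n → A)) (hgen : ExpGenerated A) (M : Fin n → Fin n → ℤ)
    (hM : ∀ i j, j < i → M i j = 0) (hdiag : ∀ i, 0 < M i i) {l : List (Tag n)}
    (hl : ∀ i j, net l i j = M i j) : 0 < cJac A l := by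
  obtain ⟨r, hr, hr1, hr2⟩ := exists_reduced (A := A) htr hgen l.length l le_rfl
  rw [hr1]
  have hnet : ∀ i j, net r i j = M i j := fun i j => by rw [← hr2, hl]
  let P : Tag n → Bool := fun t => decide (t.2.1 = t.1)
  set pre := r.filter P
  set suf := r.filter fun t => !P t
  rw [← cJac_perm (List.filter_append_perm P r)]
  have cd : ∀ k, r.count (k, k, false) = 0 ∧ 1 ≤ r.count (k, k, true) := fun k => by
    have := hnet k k
    unfold net at this
    have := hdiag k
    rcases hr k k with h | h <;> omega
  have hpre : ∀ t ∈ pre, t.2.1 = t.1 ∧ t.2.2 = true := by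
    intro t ht
    rw [List.mem_filter] at ht
    obtain ⟨i, j, b⟩ := t
    obtain rfl : j = i := by simpa [P] using ht.2
    refine ⟨rfl, ?_⟩
    cases b
    · exact absurd (List.count_pos_iff.2 ht.1) (by simp [(cd j).1])
    · rfl
  have hsuf : ∀ t ∈ suf, t.1 < t.2.1 := by
    intro t ht
    rw [List.mem_filter] at ht
    obtain ⟨i, j, b⟩ := t
    have hne : j ≠ i := by simpa [P] using ht.2
    by_contra hlt
    have h0 := hnet i j
    rw [hM i j (lt_of_le_of_ne (not_lt.1 hlt) hne)] at h0
    unfold net at h0
    have := List.count_pos_iff.2 ht.1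
    rcases hr i j with h | h <;> cases b <;> omega
  set d : Fin n → ℕ := fun k => pre.count (k, k, true) with hd
  have hd1 : ∀ k, 1 ≤ d k := fun k => by
    show 1 ≤ (r.filter P).count (k, k, true)
    rw [List.count_filter (by simp [P])]
    exact (cd k).2
  set L : List (Tag n × unitary A) := (pre ++ suf).map fun t => (t, 1)
  have hL : cJac A (pre ++ suf) = meanJac L := by
    rw [meanJac_eq_cJac htr hgen, List.map_map]
    simp [Function.comp_def]
  rw [hL]
  have key : ∀ x : unitary (Fin n → A), ∃ O, StrictUpper O ∧ jsum x L 1 = dg d x 1 + O := by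
    intro x
    obtain ⟨P', hP'⟩ := jsum_diag x (suf.map fun t => (t, (1 : unitary A)))
      (pre.map fun t => (t, (1 : unitary A))) (by
        simp only [List.mem_map, forall_exists_index, and_imp]
        rintro q t ht rfl
        exact ⟨(hpre t ht).1, (hpre t ht).2, rfl⟩) 1
    refine ⟨_, jsum_strictUpper x (suf.map fun t => (t, (1 : unitary A))) (by
        simp only [List.mem_map, forall_exists_index, and_imp]
        rintro q t ht rfl
        exact hsuf t ht) P', LinearMap.ext fun a => Subtype.ext (funext fun k => ?_)⟩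
    have := hP' a k
    rw [← List.map_append] at this
    rw [this]
    simp [dg, hd, List.map_map, Function.comp_def]
  have hnn : ∀ x : unitary (Fin n → A), 0 ≤ LinearMap.det (jsum x L 1) := fun x => by
    obtain ⟨O, hO, e⟩ := key x
    rw [e]
    exact (det_tri hd1 x hO).1
  refine integral_pos_of_integrable_nonneg_nonzero (continuous_detJ L)
    (integrable_of_continuous (continuous_detJ L)) hnn (x := 1) ?_
  obtain ⟨O, hO, e⟩ := key 1
  rw [e]
  exact ((det_tri hd1 1 hO).2 rfl).ne'

end

end Vale.Agent.P174.Degree
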