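import Vale.Agent.P174.Degree.Bump

/-!
# Word maps on a power of a unitary group, and their Jacobians
-/

namespace Vale.Agent.P174.Degree

open MeasureTheory Matrix Filter Topology

noncomputable section

variable {A : Type} [CStarAlgebra A] {n : ℕ}

/-- A letter: equation, unknown, sign. -/
abbrev Tag (n : ℕ) := Fin n × Fin n × Bool

/-- The `j`-th component of a unitary vector. -/
def cmp (x : unitary (Fin n → A)) (j : Fin n) : unitary A :=
  ⟨(x : Fin n → A) j, congrFun (Unitary.coe_star_mul_self x) j,
    congrFun (Unitary.coe_mul_star_self x) j⟩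

/-- The unitary vector with given components. -/
def toK (P : Fin n → unitary A) : unitary (Fin n → A) :=
  ⟨fun i => (P i : A), funext fun i => Unitary.coe_star_mul_self (P i),
    funext fun i => Unitary.coe_mul_star_self (P i)⟩

theorem cmp_toK (P : Fin n → unitary A) : cmp (toK P) = P := rfl

theorem toK_cmp (x : unitary (Fin n → A)) : toK (cmp x) = x := rfl

theorem toK_one : toK (1 : Fin n → unitary A) = 1 := rfl

theorem continuous_cmp : Continuous (cmp : unitary (Fin n → A) → Fin n → unitary A) :=
  continuous_pi fun j => ((continuous_apply j).comp continuous_subtype_val).subtype_mk _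

theorem continuous_toK : Continuous (toK : (Fin n → unitary A) → unitary (Fin n → A)) :=
  (continuous_pi fun i => continuous_subtype_val.comp (continuous_apply i)).subtype_mk _

/-- The sign of a letter. -/
def sg (e : Bool) : ℝ := if e then 1 else -1

/-- An unknown with a sign. -/
def pw (e : Bool) (y : unitary A) : unitary A := if e then y else y⁻¹

/-- The conjugating element of a letter. -/
def qel (t : Tag n) (a : unitary A) (x : unitary (Fin n → A)) (P : Fin n → unitary A) :
    unitary A :=
  if t.2.2 then P t.1 * a else P t.1 * a * (cmp x t.2.1)⁻¹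

/-- The state after a letter. -/
def stepU (t : Tag n) (a : unitary A) (x : unitary (Fin n → A)) (P : Fin n → unitary A) :
    Fin n → unitary A :=
  Function.update P t.1 (P t.1 * a * pw t.2.2 (cmp x t.2.1))

/-- The value of the word map. -/
def valU (x : unitary (Fin n → A)) :
    List (Tag n × unitary A) → (Fin n → unitary A) → Fin n → unitary A
  | [], P => P
  | q :: l, P => valU x l (stepU q.1 q.2 x P)

/-- The contribution of a letter to the Jacobian. -/
def term (t : Tag n) (u : unitary A) : Lie (Fin n → A) →ₗ[ℝ] Lie (Fin n → A) where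
  toFun a := ⟨Pi.single t.1 (sg t.2.2 • ((u : A) * (a : Fin n → A) t.2.1 * star (u : A))), by
    show star (Pi.single t.1 _ : Fin n → A) = -Pi.single t.1 _
    have ha : star ((a : Fin n → A) t.2.1) = -(a : Fin n → A) t.2.1 :=
      congrFun (star_of_mem_lie a) t.2.1
    rw [← Pi.single_star, star_smul, star_trivial, star_mul, star_mul, star_star, ha, ← Pi.single_neg,
      ← smul_neg]
    simp [mul_assoc]⟩
  map_add' a b := by
    ext1
    show Pi.single _ _ = Pi.single _ _ + Pi.single _ _
    rw [← Pi.single_add, ← smul_add]
    simp [mul_add, add_mul]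
  map_smul' c a := by
    ext1
    show Pi.single _ _ = c • Pi.single _ _
    rw [← Pi.single_smul, smul_comm c]
    simp

/-- The Jacobian of the word map, right trivialised. -/
def jsum (x : unitary (Fin n → A)) :
    List (Tag n × unitary A) → (Fin n → unitary A) → Lie (Fin n → A) →ₗ[ℝ] Lie (Fin n → A)
  | [], _ => 0
  | q :: l, P => term q.1 (qel q.1 q.2 x P) + jsum x l (stepU q.1 q.2 x P)

/-- An unknown with a sign, in the algebra. -/
def pwA (e : Bool) (y : A) : A := if e then y else star y

/-- The value of the word map, in the algebra. -/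
def valA : List (Tag n × A) → (Fin n → A) → (Fin n → A) → Fin n → A
  | [], _, P => P
  | q :: l, y, P => valA l y (Function.update P q.1.1 (P q.1.1 * q.2 * pwA q.1.2.2 (y q.1.2.1)))

/-- Coefficients seen in the algebra. -/
def coeL (l : List (Tag n × unitary A)) : List (Tag n × A) := l.map fun q => (q.1, (q.2 : A))

theorem coe_pw (e : Bool) (y : unitary A) : (pw e y : A) = pwA e (y : A) := by
  cases e <;> simp [pw, pwA, ← Unitary.star_eq_inv]

theorem valA_coe (x : unitary (Fin n → A)) : ∀ (l : List (Tag n × unitary A)) (P : Fin n → unitary A),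
    valA (coeL l) (x : Fin n → A) (toK P : Fin n → A) = (toK (valU x l P) : Fin n → A)
  | [], _ => rfl
  | q :: l, P => by
    rw [valU, ← valA_coe x l]
    simp only [coeL, List.map_cons, valA]
    congr 1
    funext i
    by_cases h : i = q.1.1
    · subst h
      simp [stepU, toK, coe_pw, cmp]
    · simp [stepU, toK, h]

/-- The derivative of the word map along a right invariant field. -/
theorem hasDerivAt_valA (x : unitary (Fin n → A)) (a : Lie (Fin n → A)) :
    ∀ (l : List (Tag n × unitary A)) (P : Fin n → unitary A) (Pc : ℝ → Fin n → A) (Z : Fin n → A),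
      Pc 0 = (toK P : Fin n → A) → HasDerivAt Pc (Z * (toK P : Fin n → A)) 0 →
      HasDerivAt (fun r : ℝ => valA (coeL l) ((x : Fin n → A) + r • ((a : Fin n → A) * x)) (Pc r))
        ((Z + (jsum x l P a : Fin n → A)) * (toK (valU x l P) : Fin n → A)) 0
  | [], P, Pc, Z, _, hd => by
    simpa [coeL, valA, valU, jsum] using hd
  | q :: l, P, Pc, Z, h0, hd => by
    obtain ⟨⟨i, j, e⟩, c⟩ := q
    have hy0 : HasDerivAt (fun r : ℝ => (x : Fin n → A) j + r • ((a : Fin n → A) j * (x : Fin n → A) j))
        ((a : Fin n → A) j * (x : Fin n → A) j) 0 := by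
      simpa using ((hasDerivAt_id (0 : ℝ)).smul_const _).const_add ((x : Fin n → A) j)
    have ha : star ((a : Fin n → A) j) = -(a : Fin n → A) j := congrFun (star_of_mem_lie a) j
    have hy : HasDerivAt (fun r : ℝ => pwA e ((x : Fin n → A) j + r • ((a : Fin n → A) j * (x : Fin n → A) j)))
        (if e then (a : Fin n → A) j * (x : Fin n → A) j
          else -(star ((x : Fin n → A) j) * (a : Fin n → A) j)) 0 := by
      cases e
      · simp only [pwA, Bool.false_eq_true, if_false]
        refine hy0.star.congr_deriv ?_
        rw [star_mul, ha, mul_neg]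
      · simpa [pwA] using hy0
    have h := hasDerivAt_valA x a l (stepU (i, j, e) c x P)
      (fun r => Function.update (Pc r) i
        (Pc r i * (c : A) * pwA e ((x : Fin n → A) j + r • ((a : Fin n → A) j * (x : Fin n → A) j))))
      (Z + (term (i, j, e) (qel (i, j, e) c x P) a : Fin n → A)) ?_ ?_
    · simpa [coeL, valA, valU, jsum, add_assoc] using h
    · funext k
      by_cases hk : k = i
      · subst hk
        simp [h0, stepU, toK, coe_pw, cmp]
      · simp [h0, stepU, toK, hk]
    · refine hasDerivAt_pi.2 fun k => ?_
      have hPk := hasDerivAt_pi.1 hd k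
      by_cases hk : k = i
      · subst hk
        simp only [Function.update_self]
        refine ((hPk.mul_const (c : A)).mul hy).congr_deriv ?_
        rw [h0]
        have u1 : star (c : A) * (c : A) = 1 := Unitary.coe_star_mul_self c
        have u2 : star ((P k : unitary A) : A) * ((P k : unitary A) : A) = 1 :=
          Unitary.coe_star_mul_self (P k)
        have u3 : (x : Fin n → A) j * star ((x : Fin n → A) j) = 1 :=
          congrFun (Unitary.coe_mul_star_self x) j
        have v : ∀ {p q : A}, p * q = 1 → ∀ z : A, p * (q * z) = z := fun h z => by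
          rw [← mul_assoc, h, one_mul]
        cases e <;>
          simp [pwA, term, qel, stepU, toK, pw, sg, cmp, ← Unitary.star_eq_inv, add_mul,
            mul_assoc, star_mul, v u1, v u2, u3]
      · simp only [Function.update_of_ne hk]
        refine hPk.congr_deriv ?_
        simp [term, stepU, toK, hk]

theorem valU_one_zero (x : unitary (Fin n → A)) (a : Lie (Fin n → A))
    (l : List (Tag n × unitary A)) :
    HasDerivAt (fun r : ℝ => valA (coeL l) ((x : Fin n → A) + r • ((a : Fin n → A) * x)) 1)
      ((jsum x l 1 a : Fin n → A) * (toK (valU x l 1) : Fin n → A)) 0 := by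
  have h := hasDerivAt_valA x a l 1 (fun _ => 1) 0 rfl (by simpa using hasDerivAt_const (0 : ℝ) _)
  simpa using h

/-- Smooth dependence of the word map on coefficients and unknowns. -/
theorem contDiff_valA {X : Type} [NormedAddCommGroup X] [NormedSpace ℝ X] {y : X → Fin n → A}
    (hy : ContDiff ℝ 2 y) : ∀ (L : List (Tag n × (X → A))), (∀ q ∈ L, ContDiff ℝ 2 q.2) →
      ∀ {P : X → Fin n → A}, ContDiff ℝ 2 P →
        ContDiff ℝ 2 fun p => valA (L.map fun q => (q.1, q.2 p)) (y p) (P p)
  | [], _, _, hP => hP
  | q :: L, hL, P, hP => by
    simp only [List.map_cons, valA]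
    refine contDiff_valA hy L (fun r hr => hL r (List.mem_cons_of_mem _ hr))
      (contDiff_pi.2 fun k => ?_)
    by_cases hk : k = q.1.1
    · subst hk
      simp only [Function.update_self]
      refine ((contDiff_pi.1 hP _).mul (hL q List.mem_cons_self)).mul ?_
      rcases hb : q.1.2.2 with _ | _
      · simp only [pwA, Bool.false_eq_true, if_false]
        exact ((starL' ℝ (A := A)).toContinuousLinearMap.contDiff).comp (contDiff_pi.1 hy q.1.2.1)
      · simpa [pwA] using contDiff_pi.1 hy q.1.2.1
    · simp only [Function.update_of_ne hk]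
      exact contDiff_pi.1 hP k

end

end Vale.Agent.P174.Degree
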